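import Vale.Agent.P148.R2.H838.X1

/-!
# Uniform colourings, stopping sets, and the probability form of the X-lemma
-/

namespace Vale.Agent.P148.R2.H838

open Function Vale.Agent.P148.R2.H258 Vale.Agent.P148.R2.H258.Tri

section Prob

variable {V : Type*} [Fintype V]

/-- Probability of an event under the uniform colouring. -/
noncomputable def pr (E : (V → Bool) → Prop) : ℝ :=
  (Nat.card {σ : V → Bool // E σ} : ℝ) / 2 ^ Fintype.card V

theorem pr_nonneg (E : (V → Bool) → Prop) : 0 ≤ pr E := by unfold pr; positivity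

theorem pr_mono {E F : (V → Bool) → Prop} (h : ∀ σ, E σ → F σ) : pr E ≤ pr F := by
  classical
  unfold pr
  apply div_le_div_of_nonneg_right _ (by positivity)
  exact_mod_cast Nat.card_le_card_of_injective (fun σ => (⟨σ.1, h _ σ.2⟩ : {σ // F σ}))
    (fun a b hab => Subtype.ext (Subtype.mk.inj hab))

open Classical in
theorem pr_eq_sum (E : (V → Bool) → Prop) :
    pr E = (∑ σ : V → Bool, if E σ then (1 : ℝ) else 0) / 2 ^ Fintype.card V := by
  unfold pr
  rw [Finset.sum_ite, Finset.sum_const_zero, add_zero, Finset.sum_const, nsmul_eq_mul, mul_one,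
    Nat.card_eq_fintype_card, Fintype.card_subtype]

theorem pr_or_le (E F : (V → Bool) → Prop) : pr (fun σ => E σ ∨ F σ) ≤ pr E + pr F := by
  classical
  rw [pr_eq_sum, pr_eq_sum, pr_eq_sum, ← add_div]
  apply div_le_div_of_nonneg_right _ (by positivity)
  rw [← Finset.sum_add_distrib]
  apply Finset.sum_le_sum
  intro σ _
  by_cases h1 : E σ <;> by_cases h2 : F σ <;> simp [h1, h2]

theorem pr_true : pr (fun _ : V → Bool => True) = 1 := by
  classical
  rw [pr_eq_sum]
  simp

theorem pr_le_one (E : (V → Bool) → Prop) : pr E ≤ 1 := by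
  rw [← pr_true (V := V)]
  exact pr_mono (fun _ _ => trivial)

theorem pr_false : pr (fun _ : V → Bool => False) = 0 := by
  classical
  rw [pr_eq_sum]
  simp

theorem pr_add_not (E : (V → Bool) → Prop) : pr E + pr (fun σ => ¬ E σ) = 1 := by
  classical
  rw [← pr_true (V := V), pr_eq_sum, pr_eq_sum, pr_eq_sum, ← add_div, ← Finset.sum_add_distrib]
  congr 1
  apply Finset.sum_congr rfl
  intro σ _
  by_cases h1 : E σ <;> simp [h1]

theorem abs_pr_sub_le (E F : (V → Bool) → Prop) :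
    |pr E - pr F| ≤ pr (fun σ => ¬ (E σ ↔ F σ)) := by
  rw [abs_le]
  constructor
  · have h1 : pr F ≤ pr (fun σ => E σ ∨ ¬ (E σ ↔ F σ)) :=
      pr_mono (fun σ h => by by_cases hE : E σ <;> simp [hE, h])
    have h2 := pr_or_le E (fun σ => ¬ (E σ ↔ F σ))
    linarith
  · have h1 : pr E ≤ pr (fun σ => F σ ∨ ¬ (E σ ↔ F σ)) :=
      pr_mono (fun σ h => by by_cases hF : F σ <;> simp [hF, h])
    have h2 := pr_or_le F (fun σ => ¬ (E σ ↔ F σ))
    linarith

open Classical in
/-- Take the colours of `σ` on `A` and those of `τ` off `A`. -/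
noncomputable def mix (A : Set V) (σ τ : V → Bool) : V → Bool := fun v => if v ∈ A then σ v else τ v

omit [Fintype V] in
theorem mix_mem {A : Set V} {σ τ : V → Bool} {v : V} (h : v ∈ A) : mix A σ τ v = σ v := by
  simp [mix, h]

omit [Fintype V] in
theorem mix_not_mem {A : Set V} {σ τ : V → Bool} {v : V} (h : v ∉ A) : mix A σ τ v = τ v := by
  simp [mix, h]

/-- **Stopping sets.**  `A σ` is determined by the colours of `σ` on it; if, given the colours on the
stopping set, the event `E` implies an event of small probability which only depends on the other colours,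
then `E` has small probability. -/
theorem pr_stop {E : (V → Bool) → Prop} {A : (V → Bool) → Set V}
    (hA : ∀ σ σ', (∀ v ∈ A σ, σ' v = σ v) → A σ' = A σ)
    {F : (V → Bool) → (V → Bool) → Prop} {ε : ℝ}
    (hdep : ∀ σ₀ σ σ', (∀ v ∉ A σ₀, σ' v = σ v) → F σ₀ σ → F σ₀ σ')
    (hpr : ∀ σ₀, pr (F σ₀) ≤ ε)
    (hEF : ∀ σ₀ σ, (∀ v ∈ A σ₀, σ v = σ₀ v) → E σ → F σ₀ σ) : pr E ≤ ε := by
  classical
  set Ψ : (V → Bool) × (V → Bool) → (V → Bool) × (V → Bool) :=
    fun p => (mix (A p.1) p.1 p.2, mix (A p.1) p.2 p.1) with hΨ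
  have hA1 : ∀ p : (V → Bool) × (V → Bool), A (mix (A p.1) p.1 p.2) = A p.1 := by
    intro p
    apply hA
    intro v hv
    rw [mix_mem hv]
  have hinv : Function.Involutive Ψ := by
    intro p
    simp only [hΨ, hA1]
    apply Prod.ext
    · funext v
      by_cases hv : v ∈ A p.1
      · simp [mix, hv]
      · simp [mix, hv]
    · funext v
      by_cases hv : v ∈ A p.1
      · simp [mix, hv]
      · simp [mix, hv]
  have hsum : ∑ p : (V → Bool) × (V → Bool), (if E (Ψ p).1 then (1 : ℝ) else 0) =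
      ∑ p : (V → Bool) × (V → Bool), (if E p.1 then (1 : ℝ) else 0) :=
    Equiv.sum_comp (hinv.toPerm) (fun p : (V → Bool) × (V → Bool) => if E p.1 then (1 : ℝ) else 0)
  have h1 : ∑ p : (V → Bool) × (V → Bool), (if E p.1 then (1 : ℝ) else 0) =
      (∑ σ : V → Bool, if E σ then (1 : ℝ) else 0) * 2 ^ Fintype.card V := by
    rw [Fintype.sum_prod_type, Finset.sum_mul]
    apply Finset.sum_congr rfl
    intro σ _
    by_cases hE : E σ <;> simp [hE]
  have h2 : ∑ p : (V → Bool) × (V → Bool), (if E (Ψ p).1 then (1 : ℝ) else 0) ≤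
      ∑ p : (V → Bool) × (V → Bool), (if F p.1 p.2 then (1 : ℝ) else 0) := by
    apply Finset.sum_le_sum
    intro p _
    by_cases hE : E (Ψ p).1
    · have hF : F p.1 (Ψ p).1 := by
        apply hEF _ _ _ hE
        intro v hv
        simp only [hΨ]
        rw [mix_mem hv]
      have hF' : F p.1 p.2 := by
        apply hdep _ _ _ _ hF
        intro v hv
        simp only [hΨ]
        rw [mix_not_mem hv]
      simp [hE, hF']
    · simp only [hE, if_false]
      split_ifs <;> norm_num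
  have h3 : ∑ p : (V → Bool) × (V → Bool), (if F p.1 p.2 then (1 : ℝ) else 0) ≤
      ∑ _σ : V → Bool, ε * 2 ^ Fintype.card V := by
    rw [Fintype.sum_prod_type]
    apply Finset.sum_le_sum
    intro σ _
    have := hpr σ
    rw [pr_eq_sum, div_le_iff₀ (by positivity)] at this
    exact this
  rw [hsum, h1] at h2
  have h4 := h2.trans h3
  rw [Finset.sum_const, Finset.card_univ, nsmul_eq_mul] at h4
  have h5 : (Fintype.card (V → Bool) : ℝ) = 2 ^ Fintype.card V := by
    rw [Fintype.card_fun, Fintype.card_bool]; push_cast; rfl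
  rw [h5] at h4
  rw [pr_eq_sum, div_le_iff₀ (by positivity)]
  have hpos : (0 : ℝ) < 2 ^ Fintype.card V := by positivity
  nlinarith [hpos]

end Prob

variable {V D : Type*} (T : Tri V D)

/-- Colours on the explored vertices determine the strand. -/
theorem iter_congr {σ σ' : V → Bool} {d : D} {t : ℕ} (h : ∀ v ∈ Old T σ d t, σ' v = σ v) :
    ∀ i ≤ t, (T.st σ')^[i] d = (T.st σ)^[i] d := by
  have h0 : σ' (T.src d) = σ (T.src d) := h _ ⟨0, by omega, Or.inl rfl⟩
  have h1 : σ' (T.tgt d) = σ (T.tgt d) := h _ ⟨0, by omega, Or.inr rfl⟩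
  by_cases hb : T.Bi σ d
  · intro i
    induction i with
    | zero => intro _; rfl
    | succ i ih =>
      intro hi
      rw [iterate_succ', comp_apply, ih (by omega), iterate_succ', comp_apply]
      apply T.st_congr
      · exact h _ ⟨i, by omega, Or.inl rfl⟩
      · exact h _ ⟨i, by omega, Or.inr rfl⟩
      · rcases apex_hugged hb i with h2 | h2
        · rw [← h2]; exact h _ ⟨i + 1, hi, Or.inl rfl⟩
        · rw [← h2]; exact h _ ⟨i + 1, hi, Or.inr rfl⟩
  · have hb' : ¬ T.Bi σ' d := by unfold Bi at hb ⊢; rw [h0, h1]; exact hb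
    have e : ∀ i, (T.st σ)^[i] d = d := by
      intro i
      induction i with
      | zero => rfl
      | succ i ih => rw [iterate_succ', comp_apply, ih, T.st_not hb]
    have e' : ∀ i, (T.st σ')^[i] d = d := by
      intro i
      induction i with
      | zero => rfl
      | succ i ih => rw [iterate_succ', comp_apply, ih, T.st_not hb']
    intro i _
    rw [e, e']

theorem old_congr {σ σ' : V → Bool} {d : D} {t : ℕ} (h : ∀ v ∈ Old T σ d t, σ' v = σ v) :
    Old T σ' d t = Old T σ d t := by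
  ext v
  unfold Old
  constructor
  · rintro ⟨i, hi, h2⟩
    rw [iter_congr T h i hi] at h2
    exact ⟨i, hi, h2⟩
  · rintro ⟨i, hi, h2⟩
    rw [← iter_congr T h i hi] at h2
    exact ⟨i, hi, h2⟩

open Classical in
/-- The explored set when the strand looks at a vertex of `Λ` for the first time. -/
noncomputable def StopSet (Λ : Set V) (d : D) (σ : V → Bool) : Set V :=
  if h : ∃ t, T.apex ((T.st σ)^[t] d) ∈ Λ then Old T σ d (Nat.find h) else Set.univ

theorem stopSet_congr (Λ : Set V) (d : D) (σ σ' : V → Bool)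
    (h : ∀ v ∈ StopSet T Λ d σ, σ' v = σ v) : StopSet T Λ d σ' = StopSet T Λ d σ := by
  classical
  by_cases hex : ∃ t, T.apex ((T.st σ)^[t] d) ∈ Λ
  · have e1 : StopSet T Λ d σ = Old T σ d (Nat.find hex) := by
      unfold StopSet; rw [dif_pos hex]
    rw [e1] at h
    have hit := iter_congr T h
    have hex' : ∃ t, T.apex ((T.st σ')^[t] d) ∈ Λ :=
      ⟨Nat.find hex, by rw [hit _ le_rfl]; exact Nat.find_spec hex⟩
    have e2 : Nat.find hex' = Nat.find hex := by
      rw [Nat.find_eq_iff]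
      refine ⟨by rw [hit _ le_rfl]; exact Nat.find_spec hex, ?_⟩
      intro n hn hh
      rw [hit _ hn.le] at hh
      exact Nat.find_min hex hn hh
    have e3 : StopSet T Λ d σ' = Old T σ' d (Nat.find hex') := by
      unfold StopSet; rw [dif_pos hex']
    rw [e3, e2, e1, old_congr T h]
  · have e1 : StopSet T Λ d σ = Set.univ := by
      unfold StopSet; rw [dif_neg hex]
    rw [e1] at h
    have : σ' = σ := funext (fun v => h v (Set.mem_univ v))
    rw [this]

/-- The strand of `d` looks at `Λ` for the first time, at `v`, and later is at a dart of `G v` before it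
meets `w`. -/
def LeaveEv (Λ : Set V) (d : D) (w : V) (G : V → Set D) (σ : V → Bool) : Prop :=
  T.Bi σ d ∧ ∃ t n, t < n ∧ (∀ i < t, T.apex ((T.st σ)^[i] d) ∉ Λ) ∧
    T.apex ((T.st σ)^[t] d) ∈ Λ ∧ w ∉ Old T σ d n ∧ (T.st σ)^[n] d ∈ G (T.apex ((T.st σ)^[t] d))

/-- A monochromatic walk of colour `c` with all its vertices in `F`, from a vertex of `A` to a vertex of `B`. -/
def Arm (c : Bool) (F A B : Set V) (σ : V → Bool) : Prop := ∃ x ∈ A, ∃ y ∈ B, Joined T σ c F x y

theorem Joined.congr {T : Tri V D} {σ σ' : V → Bool} {c : Bool} {F : Set V} {x y : V}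
    (h : Joined T σ c F x y)
    (hσ : ∀ v ∈ F, σ' v = σ v) : Joined T σ' c F x y := by
  obtain ⟨h1, h2, l, h3, h4⟩ := h
  refine ⟨h1, by rw [hσ _ h1, h2], l, h3, ?_⟩
  intro g hg
  have := h4 g hg
  exact ⟨⟨by rw [hσ _ this.1.2]; exact this.1.1, this.1.2⟩,
    ⟨by rw [hσ _ this.2.2]; exact this.2.1, this.2.2⟩⟩

theorem Arm.mono {T : Tri V D} {c : Bool} {F F' A A' B B' : Set V} {σ : V → Bool}
    (h : Arm T c F A B σ) (hF : F ⊆ F') (hA : A ⊆ A') (hB : B ⊆ B') : Arm T c F' A' B' σ := by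
  obtain ⟨x, hx, y, hy, h⟩ := h
  exact ⟨x, hA hx, y, hB hy, h.mono hF⟩

theorem Arm.symm {T : Tri V D} {c : Bool} {F A B : Set V} {σ : V → Bool}
    (h : Arm T c F A B σ) : Arm T c F B A σ := by
  obtain ⟨x, hx, y, hy, h⟩ := h
  exact ⟨y, hy, x, hx, h.symm⟩

/-- **X-lemma, probability form.** -/
theorem pr_leave [Fintype V] (hP : T.Planar) {d : D} {Λ : Set V} {G : V → Set D}
    {Far : V → Set V} {p : V → List D} {ε : ℝ} (hε : 0 ≤ ε)
    (hd : T.src d ∉ Λ ∧ T.tgt d ∉ Λ)
    (hp : ∀ v ∈ Λ, T.Walk v (T.apex (T.rev d)) (p v)) (hpΛ : ∀ v ∈ Λ, ∀ g ∈ p v, T.src g ∈ Λ)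
    (hG : ∀ v ∈ Λ, ∀ g ∈ G v, T.src g ∈ Far v ∧ T.tgt g ∈ Far v)
    (harm : ∀ v ∈ Λ, ∀ c, pr (Arm T c {u | u ≠ T.src d ∧ u ≠ T.tgt d ∧ u ≠ T.apex (T.rev d)}
      {u | ∃ g ∈ p v, T.src g = u} (Far v)) ≤ ε) :
    pr (LeaveEv T Λ d (T.apex (T.rev d)) G) ≤ 2 * ε := by
  classical
  set w := T.apex (T.rev d) with hw
  set I : Set V := {u | u ≠ T.src d ∧ u ≠ T.tgt d ∧ u ≠ w} with hI
  -- the event on the atom of `σ₀`
  set F : (V → Bool) → (V → Bool) → Prop := fun σ₀ σ =>
    if h : ∃ t, T.apex ((T.st σ₀)^[t] d) ∈ Λ then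
      (Arm T true (I ∩ (Old T σ₀ d (Nat.find h))ᶜ)
        {u | ∃ g ∈ p (T.apex ((T.st σ₀)^[Nat.find h] d)), T.src g = u}
        (Far (T.apex ((T.st σ₀)^[Nat.find h] d))) σ ∨
      Arm T false (I ∩ (Old T σ₀ d (Nat.find h))ᶜ)
        {u | ∃ g ∈ p (T.apex ((T.st σ₀)^[Nat.find h] d)), T.src g = u}
        (Far (T.apex ((T.st σ₀)^[Nat.find h] d))) σ)
    else False with hF
  apply pr_stop (A := StopSet T Λ d) (F := F) (stopSet_congr T Λ d)
  · intro σ₀ σ σ' hσ h
    by_cases hex : ∃ t, T.apex ((T.st σ₀)^[t] d) ∈ Λ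
    · have e1 : StopSet T Λ d σ₀ = Old T σ₀ d (Nat.find hex) := by
        unfold StopSet; rw [dif_pos hex]
      rw [e1] at hσ
      simp only [hF, dif_pos hex] at h ⊢
      rcases h with ⟨x, hx, y, hy, h⟩ | ⟨x, hx, y, hy, h⟩
      · left; exact ⟨x, hx, y, hy, h.congr (fun v hv => hσ v hv.2)⟩
      · right; exact ⟨x, hx, y, hy, h.congr (fun v hv => hσ v hv.2)⟩
    · simp only [hF, dif_neg hex] at h
  · intro σ₀
    by_cases hex : ∃ t, T.apex ((T.st σ₀)^[t] d) ∈ Λ
    · simp only [hF, dif_pos hex]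
      have hv := Nat.find_spec hex
      refine (pr_or_le _ _).trans ?_
      have a1 := harm _ hv true
      have a2 := harm _ hv false
      have b1 := pr_mono (fun σ (h : Arm T true (I ∩ (Old T σ₀ d (Nat.find hex))ᶜ)
        {u | ∃ g ∈ p (T.apex ((T.st σ₀)^[Nat.find hex] d)), T.src g = u}
        (Far (T.apex ((T.st σ₀)^[Nat.find hex] d))) σ) =>
          h.mono (Set.inter_subset_left (s := I)) (Set.Subset.refl _) (Set.Subset.refl _))
      have b2 := pr_mono (fun σ (h : Arm T false (I ∩ (Old T σ₀ d (Nat.find hex))ᶜ)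
        {u | ∃ g ∈ p (T.apex ((T.st σ₀)^[Nat.find hex] d)), T.src g = u}
        (Far (T.apex ((T.st σ₀)^[Nat.find hex] d))) σ) =>
          h.mono (Set.inter_subset_left (s := I)) (Set.Subset.refl _) (Set.Subset.refl _))
      linarith
    · simp only [hF, dif_neg hex]
      rw [pr_false]; linarith
  · intro σ₀ σ hσ hE
    obtain ⟨hb, t, n, htn, hmin, hv, hwn, hG'⟩ := hE
    -- the stopping time is `t` for both
    have hex : ∃ t, T.apex ((T.st σ)^[t] d) ∈ Λ := ⟨t, hv⟩
    have ht : Nat.find hex = t := by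
      rw [Nat.find_eq_iff]; exact ⟨hv, hmin⟩
    by_cases hex0 : ∃ t, T.apex ((T.st σ₀)^[t] d) ∈ Λ
    · have e1 : StopSet T Λ d σ₀ = Old T σ₀ d (Nat.find hex0) := by
        unfold StopSet; rw [dif_pos hex0]
      rw [e1] at hσ
      have hit := iter_congr T hσ
      have ht0 : Nat.find hex0 = t := by
        have h1 : T.apex ((T.st σ)^[Nat.find hex0] d) ∈ Λ := by
          rw [hit _ le_rfl]; exact Nat.find_spec hex0
        have h2 : t ≤ Nat.find hex0 := by
          by_contra hlt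
          exact hmin _ (by omega) h1
        rcases h2.lt_or_eq with h3 | h3
        · exfalso
          apply Nat.find_min hex0 h3
          rw [← hit _ h3.le]; exact hv
        · exact h3.symm
      simp only [hF, dif_pos hex0]
      rw [ht0] at hit hσ ⊢
      have hapex : T.apex ((T.st σ₀)^[t] d) = T.apex ((T.st σ)^[t] d) := by rw [hit _ le_rfl]
      rw [hapex, ← old_congr T hσ]
      set v := T.apex ((T.st σ)^[t] d) with hvdef
      have hOΛ : ∀ u ∈ Λ, u ∉ Old T σ d t := by
        have hseq : ∀ i ≤ t, T.src ((T.st σ)^[i] d) ∉ Λ ∧ T.tgt ((T.st σ)^[i] d) ∉ Λ := by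
          intro i
          induction i with
          | zero => intro _; exact hd
          | succ i ih =>
            intro hi
            have h1 := ih (by omega)
            have h2 := hmin i (by omega)
            have hb' : T.Bi σ ((T.st σ)^[i] d) := (T.bi_iter i).2 hb
            rw [iterate_succ', comp_apply]
            by_cases hm : T.Mi σ ((T.st σ)^[i] d)
            · rw [T.src_st_mi hm, T.tgt_st_mi hm]; exact ⟨h2, h1.2⟩
            · rw [T.src_st_nmi hb' hm, T.tgt_st_nmi hb' hm]; exact ⟨h1.1, h2⟩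
        rintro u hu ⟨i, hi, h | h⟩
        · exact (hseq i hi).1 (h ▸ hu)
        · exact (hseq i hi).2 (h ▸ hu)
      have hx := xlemma hP hb htn hwn (hp v hv) (fun g hg => hOΛ _ (hpΛ v hv g hg))
      have hFar := hG v hv _ hG'
      have h0 : T.src d ∈ Old T σ d t := ⟨0, by omega, Or.inl rfl⟩
      have h1 : T.tgt d ∈ Old T σ d t := ⟨0, by omega, Or.inr rfl⟩
      have hFL : FrL T σ d t n ⊆ I ∩ (Old T σ d t)ᶜ := by
        rintro u ⟨hu1, k, hk1, hk2, hk3⟩
        refine ⟨⟨?_, ?_, ?_⟩, hu1⟩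
        · rintro rfl; exact hu1 h0
        · rintro rfl; exact hu1 h1
        · rintro rfl; exact hwn ⟨k, hk2, Or.inl hk3⟩
      have hFR : FrR T σ d t n ⊆ I ∩ (Old T σ d t)ᶜ := by
        rintro u ⟨hu1, k, hk1, hk2, hk3⟩
        refine ⟨⟨?_, ?_, ?_⟩, hu1⟩
        · rintro rfl; exact hu1 h0
        · rintro rfl; exact hu1 h1
        · rintro rfl; exact hwn ⟨k, hk2, Or.inr hk3⟩
      have key : ∀ c, (∃ g ∈ p v, Joined T σ c (I ∩ (Old T σ d t)ᶜ) (T.src ((T.st σ)^[n] d)) (T.src g)) ∨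
          (∃ g ∈ p v, Joined T σ c (I ∩ (Old T σ d t)ᶜ) (T.tgt ((T.st σ)^[n] d)) (T.src g)) →
          Arm T c (I ∩ (Old T σ d t)ᶜ) {u | ∃ g ∈ p v, T.src g = u} (Far v) σ := by
        rintro c (⟨g, hg, h⟩ | ⟨g, hg, h⟩)
        · exact ⟨_, ⟨g, hg, rfl⟩, _, hFar.1, h.symm⟩
        · exact ⟨_, ⟨g, hg, rfl⟩, _, hFar.2, h.symm⟩
      have : ∃ c, Arm T c (I ∩ (Old T σ d t)ᶜ) {u | ∃ g ∈ p v, T.src g = u} (Far v) σ := by
        rcases hx with ⟨g, hg, h⟩ | ⟨g, hg, h⟩
        · exact ⟨_, key _ (Or.inl ⟨g, hg, h.mono hFL⟩)⟩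
        · exact ⟨_, key _ (Or.inr ⟨g, hg, h.mono hFR⟩)⟩
      obtain ⟨c, hc⟩ := this
      cases c
      · right; exact hc
      · left; exact hc
    · exfalso
      have e1 : StopSet T Λ d σ₀ = Set.univ := by
        unfold StopSet; rw [dif_neg hex0]
      rw [e1] at hσ
      have : σ = σ₀ := funext (fun v => hσ v (Set.mem_univ v))
      rw [← this] at hex0
      exact hex0 hex

end Vale.Agent.P148.R2.H838
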