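import Vale.Agent.P148.R2.H838.X1
import Vale.Agent.P148.R2.H258.A6

/-!
# Footprint of an excursion

`O` is a vertex (everything outside a domain, contracted).  `tour O` is the permutation of the darts from
`O` to other vertices which follows the boundary of the domain.  The darts of a strand which leave `O` all
lie in one tour interval, between the two ends of the excursion.
-/

namespace Vale.Agent.P148.R2.H838

open Function Vale.Agent.P148.R2.H258 Vale.Agent.P148.R2.H258.Tri

variable {V D : Type*} (T : Tri V D)

/-- Darts from `O` to another vertex. -/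
def OutD (O : V) (e : D) : Prop := T.src e = O ∧ T.tgt e ≠ O

open Classical in
/-- The next dart at `O` along the boundary. -/
noncomputable def tour (O : V) (e : D) : D :=
  if T.apex (T.rev e) = O then T.nxt (T.nxt (T.rev e)) else T.nxt (T.rev e)

variable {T}

theorem tour_pos {O : V} {e : D} (h : T.apex (T.rev e) = O) :
    tour T O e = T.nxt (T.nxt (T.rev e)) := by simp [tour, h]

theorem tour_neg {O : V} {e : D} (h : T.apex (T.rev e) ≠ O) :
    tour T O e = T.nxt (T.rev e) := by simp [tour, h]

theorem tour_out {O : V} {e : D} (h : OutD T O e) : OutD T O (tour T O e) := by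
  by_cases ha : T.apex (T.rev e) = O
  · rw [tour_pos ha]
    refine ⟨by rw [src_nxt2, ha], ?_⟩
    rw [T.tgt_nxt2, T.src_rev]; exact h.2
  · rw [tour_neg ha]
    refine ⟨by rw [T.src_nxt', T.tgt_rev, h.1], ?_⟩
    rw [T.tgt_nxt]; exact ha

theorem tour_inj {O : V} {e f : D} (he : OutD T O e) (hf : OutD T O f)
    (h : tour T O e = tour T O f) : e = f := by
  have inj : ∀ {x y : D}, T.nxt x = T.nxt y → x = y := by
    intro x y hxy
    have := congrArg (fun z => T.nxt (T.nxt z)) hxy
    simpa only [T.nxt3] using this
  have rinj : ∀ {x y : D}, T.rev x = T.rev y → x = y := by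
    intro x y hxy
    have := congrArg T.rev hxy
    rwa [T.rev_rev, T.rev_rev] at this
  by_cases h1 : T.apex (T.rev e) = O <;> by_cases h2 : T.apex (T.rev f) = O
  · rw [tour_pos h1, tour_pos h2] at h
    exact rinj (inj (inj h))
  · exfalso
    rw [tour_pos h1, tour_neg h2] at h
    -- nxt (rev e) = rev f is a loop
    have h3 := inj h
    have h4 := congrArg T.tgt h3
    have h5 := congrArg T.src h3
    rw [T.src_nxt', T.tgt_rev, he.1, T.src_rev] at h5
    exact hf.2 h5.symm
  · exfalso
    rw [tour_neg h1, tour_pos h2] at h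
    have h3 := inj h
    have h5 := congrArg T.src h3
    rw [T.src_nxt', T.tgt_rev, hf.1, T.src_rev] at h5
    exact he.2 h5
  · rw [tour_neg h1, tour_neg h2] at h
    exact rinj (inj h)

theorem tour_iter_out {O : V} {e : D} (h : OutD T O e) (n : ℕ) : OutD T O ((tour T O)^[n] e) := by
  induction n with
  | zero => exact h
  | succ n ih => rw [iterate_succ', comp_apply]; exact tour_out ih

/-- A face function has the same value on `tour e` and on `rev e`. -/
theorem face_tour {N : D → ZMod 2} (h1 : ∀ d, N (T.nxt d) = N d) (O : V) (e : D) :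
    N (tour T O e) = N (T.rev e) := by
  by_cases ha : T.apex (T.rev e) = O
  · rw [tour_pos ha, h1, h1]
  · rw [tour_neg ha, h1]

/-- The tour is periodic. -/
theorem tour_periodic [Finite D] {O : V} {e : D} (h : OutD T O e) :
    ∃ N, 0 < N ∧ (tour T O)^[N] e = e ∧ ∀ j, 0 < j → j < N → (tour T O)^[j] e ≠ e := by
  classical
  have hex : ∃ n, 0 < n ∧ (tour T O)^[n] e = e := by
    obtain ⟨a, b, hab, heq⟩ := Finite.exists_ne_map_eq_of_infinite (fun n : ℕ => (tour T O)^[n] e)
    have key : ∀ a b : ℕ, a < b → (tour T O)^[a] e = (tour T O)^[b] e →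
        ∃ n, 0 < n ∧ (tour T O)^[n] e = e := by
      intro a
      induction a with
      | zero => intro b hb h2; exact ⟨b, hb, h2.symm⟩
      | succ a ih =>
        intro b hb h2
        obtain ⟨c, rfl⟩ : ∃ c, b = c + 1 := ⟨b - 1, by omega⟩
        rw [iterate_succ', comp_apply, iterate_succ', comp_apply] at h2
        exact ih c (by omega) (tour_inj (tour_iter_out h a) (tour_iter_out h c) h2)
    rcases lt_or_gt_of_ne hab with h2 | h2
    · exact key a b h2 heq
    · exact key b a h2 heq.symm
  refine ⟨Nat.find hex, (Nat.find_spec hex).1, (Nat.find_spec hex).2, ?_⟩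
  intro j hj1 hj2 hj3
  exact Nat.find_min hex hj2 ⟨hj1, hj3⟩

/-- A walk all of whose vertices (both ends included) are different from `O`. -/
def WalkOff (T : Tri V D) (O u v : V) : Prop :=
  u ≠ O ∧ ∃ l, T.Walk u v l ∧ ∀ g ∈ l, T.src g ≠ O ∧ T.tgt g ≠ O

/-- Darts from `O` into one component of the complement of `O` are in one tour orbit. -/
theorem tour_orbit [Finite D] (hP : T.Planar) {O : V} {f f' : D} (hf : OutD T O f)
    (hf' : OutD T O f') (hw : WalkOff T O (T.tgt f) (T.tgt f')) :
    ∃ j, (tour T O)^[j] f = f' := by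
  classical
  by_contra hcon
  push Not at hcon
  obtain ⟨-, l, hl, hlO⟩ := hw
  obtain ⟨n, hn0, hn, hmin⟩ := tour_periodic hf
  have hΓ : T.Walk (T.src f) (T.src f) ([f] ++ (l ++ [T.rev f'])) := by
    refine (Walk.single f).append (hl.append ?_)
    have := Walk.single (T := T) (T.rev f')
    rw [T.src_rev, T.tgt_rev] at this
    rwa [hf.1, ← hf'.1]
  obtain ⟨N, hN1, hN2⟩ := hP _ _ hΓ
  have hmu : ∀ j < n, T.mu ([f] ++ (l ++ [T.rev f'])) ((tour T O)^[j] f) =
      if j = 0 then 1 else 0 := by
    intro j hj
    have ho := tour_iter_out hf j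
    set e := (tour T O)^[j] f with he
    rw [T.mu_append, T.mu_append]
    have z1 : T.mu l e = 0 := by
      apply T.mu_zero
      · intro h; exact (hlO _ h).1 ho.1
      · intro h
        have := (hlO _ h).2
        rw [T.tgt_rev] at this
        exact this ho.1
    have z2 : T.mu [T.rev f'] e = 0 := by
      apply T.mu_zero
      · intro h
        rw [List.mem_singleton] at h
        have := congrArg T.src h
        rw [T.src_rev, ho.1] at this
        exact hf'.2 this.symm
      · intro h
        rw [List.mem_singleton] at h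
        have := congrArg T.rev h
        rw [T.rev_rev, T.rev_rev] at this
        exact hcon j this
    have z3 : T.mu [f] e = if j = 0 then 1 else 0 := by
      rw [T.mu_cons, T.mu_nil]
      have h1 : f ≠ T.rev e := by
        intro h
        have := congrArg T.src h
        rw [T.src_rev, hf.1] at this
        exact ho.2 this.symm
      by_cases hj0 : j = 0
      · have h2 : f = e := by rw [he, hj0]; rfl
        simp [hj0, ← h2]
        rw [← h2] at h1
        exact h1
      · have h2 : f ≠ e := by
          intro h
          exact hmin j (by omega) hj h.symm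
        simp [h1, h2, hj0]
    rw [z1, z2, z3]; ring
  have hstep : ∀ j < n, N ((tour T O)^[j] f) + N ((tour T O)^[j + 1] f) = if j = 0 then 1 else 0 := by
    intro j hj
    have ho := tour_iter_out hf j
    rw [← hmu j hj, ← hN2 _ (Or.inl (by rw [ho.1]; exact ho.2.symm)), iterate_succ', comp_apply,
      face_tour hN1]
  have hval : ∀ j, j ≤ n → 1 ≤ j → N ((tour T O)^[j] f) = N f + 1 := by
    intro j
    induction j with
    | zero => intro _ h; omega
    | succ j ih =>
      intro hj _
      have h1 := hstep j (by omega)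
      rcases Nat.eq_zero_or_pos j with rfl | hj0
      · rw [if_pos rfl, iterate_zero, id] at h1
        revert h1
        generalize N ((tour T O)^[0 + 1] f) = a
        generalize N f = b
        revert a b; decide
      · rw [ih (by omega) (by omega), if_neg (by omega)] at h1
        revert h1
        generalize N ((tour T O)^[j + 1] f) = a
        generalize N f = b
        revert a b; decide
  have := hval n le_rfl hn0
  rw [hn] at this
  revert this
  generalize N f = b
  revert b; decide

theorem _root_.Vale.Agent.P148.R2.H258.Tri.Walk.last {T : Tri V D} {u v : V} {l : List D}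
    (h : T.Walk u v l) (hl : l ≠ []) :
    ∃ l' g, l = l' ++ [g] ∧ T.Walk u (T.src g) l' ∧ T.tgt g = v := by
  induction h with
  | nil v => exact absurd rfl hl
  | cons d w l hw ih =>
    by_cases h2 : l = []
    · subst h2
      rcases hw.casesOn' with ⟨_, h3⟩ | ⟨e, l', h3, _, _⟩
      · exact ⟨[], d, rfl, Walk.nil _, h3⟩
      · exact absurd h3 (by simp)
    · obtain ⟨l', g, h3, h4, h5⟩ := ih h2
      exact ⟨d :: l', g, by rw [h3]; rfl, Walk.cons d _ _ h4, h5⟩

/-- Two darts of a list with the same source are equal if the list of sources has no repetition. -/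
theorem eq_of_src {l : List D} (hn : (l.map T.src).Nodup) {e f : D} (he : e ∈ l) (hf : f ∈ l)
    (h : T.src e = T.src f) : e = f := List.inj_on_of_nodup_map hn he hf h

/-- **Footprint of an excursion.**  `d` is a minority dart which leaves `O = src d`; its class is an
excursion from `O` to `O`, with last member `f`.  The face potential of the excursion vanishes exactly on
the tour interval from `d` to the last edge, and all darts of the strand which leave `O` are in it. -/
theorem foot [Finite D] (hP : T.Planar) {σ : V → Bool} {d : D} (h : T.Mi σ d)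
    (hg : T.apex d ≠ T.src d) : ∃ f m N, T.Rel σ d f ∧ T.apex f = T.src d ∧ m < N ∧
      (tour T (T.src d))^[N] d = d ∧ (∀ i j, i < j → j < N →
        (tour T (T.src d))^[i] d ≠ (tour T (T.src d))^[j] d) ∧
      (tour T (T.src d))^[m] d = T.nxt (T.nxt f) ∧
      (∀ j < N, T.pot σ d ((tour T (T.src d))^[j] d) = if j ≤ m then 0 else 1) ∧
      (∀ j < N, T.pot σ d (T.rev ((tour T (T.src d))^[j] d)) =
        if j < m ∨ j + 1 = N then 0 else 1) ∧
      ∀ k, T.src ((T.st σ)^[k] d) = T.src d → ∃ j ≤ m, (tour T (T.src d))^[j] d = (T.st σ)^[k] d := by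
  classical
  obtain ⟨h0, l, hpot, hw, hwl, hnd, hmem⟩ := T.pot_spec hP h hg
  set O := T.src d with hO
  set g0 := T.rev (T.nxt (T.nxt d)) with hg0
  have hdO : OutD T O d := ⟨rfl, fun hh => h.1 (by rw [hh])⟩
  have hg0s : T.src g0 = O := by rw [hg0, T.src_rev, T.tgt_nxt2]
  have hg0t : T.tgt g0 = T.apex d := by rw [hg0, T.tgt_rev, src_nxt2]
  have hg0O : OutD T O g0 := ⟨hg0s, by rw [hg0t]; exact hg⟩
  have htg0 : tour T O g0 = d := by
    have ha : T.apex (T.rev g0) ≠ O := by
      rw [hg0, T.rev_rev, apex_nxt2]; exact hdO.2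
    rw [tour_neg ha, hg0, T.rev_rev, T.nxt3]
  have hlne : l ≠ [] := by
    rintro rfl
    rcases hwl.casesOn' with ⟨_, h3⟩ | ⟨e, l', h3, _, _⟩
    · exact hg h3
    · exact absurd h3 (by simp)
  obtain ⟨l', gl, hll, hwl', hglt⟩ := hwl.last hlne
  have hglm : gl ∈ g0 :: l := by rw [hll]; simp
  have hgl0 : ∀ e ∈ l, T.src e ≠ O := by
    intro e he hh
    have : e = g0 := eq_of_src hnd (List.mem_cons_of_mem _ he) (by simp) (by rw [hh, hg0s])
    rw [this] at he
    rw [List.map_cons, List.nodup_cons] at hnd
    exact hnd.1 (List.mem_map_of_mem he)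
  have hglsrc : T.src gl ≠ O := hgl0 gl (by rw [hll]; simp)
  obtain ⟨f, hRf, hglf⟩ := (hmem gl).1 hglm
  have hrgl : T.rev gl = T.nxt (T.nxt f) := by rw [hglf, T.rev_rev]
  have hapf : T.apex f = O := by
    rw [← src_nxt2, ← hrgl, T.src_rev, hglt]
  have hrO : OutD T O (T.rev gl) := ⟨by rw [T.src_rev, hglt], by rw [T.tgt_rev]; exact hglsrc⟩
  -- the only dart of the cycle with target `O` is `gl`
  have htgt : ∀ e ∈ g0 :: l, T.tgt e = O → e = gl := by
    intro e he hh
    have hnd2 : ((g0 :: l).map T.tgt).Nodup := by
      have h1 : ((g0 :: l).map T.src).Perm ((g0 :: l).map T.tgt) := by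
        have h2 : ∀ {u v : V} {l : List D}, T.Walk u v l → l.map T.src ++ [v] = u :: l.map T.tgt := by
          intro u v l hl
          induction hl with
          | nil v => rfl
          | cons d w l _ ih => simp only [List.map_cons, List.cons_append, ih]
        have h3 := h2 hw
        have h4 : (O :: (g0 :: l).map T.src).Perm (O :: (g0 :: l).map T.tgt) := by
          rw [← h3]
          exact (List.perm_append_singleton O ((g0 :: l).map T.src)).symm
        exact h4.cons_inv
      exact h1.nodup_iff.1 hnd
    exact List.inj_on_of_nodup_map hnd2 he hglm (by rw [hh, hglt])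
  -- the tour
  obtain ⟨N, hN0, hN, hmin⟩ := tour_periodic hdO
  have hdist : ∀ i j, i < j → j < N → (tour T O)^[i] d ≠ (tour T O)^[j] d := by
    intro i
    induction i with
    | zero => intro j h1 h2 h3; exact hmin j h1 h2 h3.symm
    | succ i ih =>
      intro j h1 h2 h3
      obtain ⟨c, rfl⟩ : ∃ c, j = c + 1 := ⟨j - 1, by omega⟩
      rw [iterate_succ', comp_apply, iterate_succ', comp_apply] at h3
      exact ih c (by omega) (by omega)
        (tour_inj (tour_iter_out hdO i) (tour_iter_out hdO c) h3)
  have hper : IsPeriodicPt (tour T O) N d := hN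
  have hred : ∀ e, OutD T O e → WalkOff T O (T.tgt d) (T.tgt e) →
      ∃ j < N, (tour T O)^[j] d = e := by
    intro e he hwo
    obtain ⟨j, hj⟩ := tour_orbit hP hdO he hwo
    refine ⟨j % N, Nat.mod_lt _ hN0, ?_⟩
    rw [hper.iterate_mod_apply, hj]
  have hlast : (tour T O)^[N - 1] d = g0 := by
    apply tour_inj (tour_iter_out hdO _) hg0O
    rw [htg0, ← comp_apply (f := tour T O), ← iterate_succ', Nat.succ_eq_add_one,
      Nat.sub_add_cancel hN0, hN]
  -- the last edge
  have hwo : WalkOff T O (T.tgt d) (T.tgt (T.rev gl)) := by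
    refine ⟨hdO.2, T.nxt d :: l', ?_, ?_⟩
    · apply Walk.cons' _ (T.src_nxt' d)
      rw [T.tgt_nxt, T.tgt_rev]; exact hwl'
    · intro e he
      rcases List.mem_cons.1 he with rfl | he
      · rw [T.src_nxt', T.tgt_nxt]; exact ⟨hdO.2, hg⟩
      · have hel : e ∈ l := by rw [hll]; exact List.mem_append_left _ he
        refine ⟨hgl0 e hel, ?_⟩
        rcases hwl'.tgt_mem e he with h3 | ⟨e', he', h3⟩
        · rw [h3]; exact hglsrc
        · rw [← h3]
          exact hgl0 e' (by rw [hll]; exact List.mem_append_left _ he')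
  obtain ⟨m, hmN, hm⟩ := hred _ hrO hwo
  have hmu : ∀ j < N, T.mu (g0 :: l) ((tour T O)^[j] d) =
      (if j + 1 = N then 1 else 0) + (if j = m then 1 else 0) := by
    intro j hj
    have ho := tour_iter_out hdO j
    have hc1 : ∀ e ∈ g0 :: l, (g0 :: l).count e = 1 := fun e he =>
      List.count_eq_one_of_mem (List.Nodup.of_map _ hnd) he
    have a1 : (((g0 :: l).count ((tour T O)^[j] d) : ℕ) : ZMod 2) = if j + 1 = N then 1 else 0 := by
      by_cases h1 : j + 1 = N
      · have : (tour T O)^[j] d = g0 := by
          rw [← hlast]; congr 1; omega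
        rw [this, hc1 g0 (by simp), if_pos h1]; norm_num
      · rw [if_neg h1, List.count_eq_zero_of_not_mem]
        · norm_num
        · intro hmm
          have h2 : (tour T O)^[j] d = g0 := eq_of_src hnd hmm (by simp) (by rw [ho.1, hg0s])
          rw [← hlast] at h2
          exact hdist j (N - 1) (by omega) (by omega) h2
    have a2 : (((g0 :: l).count (T.rev ((tour T O)^[j] d)) : ℕ) : ZMod 2) = if j = m then 1 else 0 := by
      by_cases h1 : j = m
      · have : T.rev ((tour T O)^[j] d) = gl := by rw [h1, hm, T.rev_rev]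
        rw [this, hc1 gl hglm, if_pos h1]; norm_num
      · rw [if_neg h1, List.count_eq_zero_of_not_mem]
        · norm_num
        · intro hmm
          have h2 := htgt _ hmm (by rw [T.tgt_rev, ho.1])
          have h3 := congrArg T.rev h2
          rw [T.rev_rev, ← hm] at h3
          rcases lt_or_gt_of_ne h1 with h4 | h4
          · exact hdist j m h4 hmN h3
          · exact hdist m j h4 hj h3.symm
    unfold mu
    rw [a1, a2]
  have hstep : ∀ j < N, T.pot σ d (T.rev ((tour T O)^[j] d)) = T.pot σ d ((tour T O)^[j] d) +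
      ((if j + 1 = N then 1 else 0) + (if j = m then 1 else 0)) := by
    intro j hj
    have ho := tour_iter_out hdO j
    have h1 := hpot.2 ((tour T O)^[j] d) (Or.inl (by rw [ho.1]; exact ho.2.symm))
    rw [hmu j hj] at h1
    rw [← h1]
    generalize T.pot σ d (T.rev ((tour T O)^[j] d)) = a
    generalize T.pot σ d ((tour T O)^[j] d) = b
    revert a b; decide
  have hval : ∀ j < N, T.pot σ d ((tour T O)^[j] d) = if j ≤ m then 0 else 1 := by
    intro j
    induction j with
    | zero => intro _; simpa using h0
    | succ j ih =>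
      intro hj
      rw [iterate_succ', comp_apply, face_tour hpot.1, hstep j (by omega), ih (by omega),
        if_neg (by omega : ¬ j + 1 = N)]
      by_cases h1 : j ≤ m
      · by_cases h2 : j = m
        · rw [if_pos h1, if_pos h2, if_neg (by omega)]; decide
        · rw [if_pos h1, if_neg h2, if_pos (by omega)]; decide
      · rw [if_neg h1, if_neg (by omega : ¬ j = m), if_neg (by omega)]; decide
  refine ⟨f, m, N, hRf, hapf, hmN, hN, hdist, by rw [hm, hrgl], hval, ?_, ?_⟩
  · intro j hj
    rw [hstep j hj, hval j hj]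
    by_cases h1 : j + 1 = N
    · by_cases h2 : j = m
      · rw [if_pos h1, if_pos h2, if_pos (by omega), if_pos (Or.inr h1)]; decide
      · rw [if_pos h1, if_neg h2, if_neg (by omega), if_pos (Or.inr h1)]; decide
    · by_cases h2 : j = m
      · rw [if_neg h1, if_pos h2, if_pos (by omega), if_neg (by omega)]; decide
      · by_cases h3 : j < m
        · rw [if_neg h1, if_neg h2, if_pos (by omega), if_pos (Or.inl h3)]; decide
        · rw [if_neg h1, if_neg h2, if_neg (by omega), if_neg (by omega)]; decide
  · intro k hk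
    have hb : T.Bi σ ((T.st σ)^[k] d) := (T.bi_iter k).2 h.bi
    have hkO : OutD T O ((T.st σ)^[k] d) := by
      refine ⟨hk, fun hh => hb (by rw [hk, hh])⟩
    have hwo' : WalkOff T O (T.tgt d) (T.tgt ((T.st σ)^[k] d)) := by
      refine ⟨hdO.2, _, T.rw_walk h.bi k, ?_⟩
      intro e he
      obtain ⟨i, -, h1, h2⟩ := T.rw_mem h.bi he
      have hc : ∀ i, T.tgt ((T.st σ)^[i] d) ≠ O := by
        intro i hh
        have := T.col_tgt_iter σ d i
        rw [hh] at this
        exact h.1 this
      rw [h1, h2]
      exact ⟨hc _, hc _⟩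
    obtain ⟨j, hjN, hj⟩ := hred _ hkO hwo'
    refine ⟨j, ?_, hj⟩
    by_contra hc
    have h1 := hval j hjN
    rw [if_neg hc, hj, T.pot_iter (σ := σ) ?_ hpot h.bi k, h0] at h1
    · exact absurd h1 (by decide)
    · intro e he
      have := T.inG_col ((hmem e).1 he)
      rw [this.1, this.2]

end Vale.Agent.P148.R2.H838
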