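import Vale.Agent.P148.R2.H953.Tool2

/-!
# Composite colourings (quenched form)

`V` finite, fair colourings. `A` is a stopping set (the explored gates), `B k` are disjoint regions
(the sections), `F k` depends on the explored colours and on the colours of `B k`.

* `cond A F` : conditional mean of `F` given the explored colours
* `two_stage` : `ex (g * ∏ F k) = ex (g * ∏ cond A (F k))`
* `cond_local` : `cond A F = cond A' F` when `F` looks only at a smaller stopping set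
* `tilt_ex`, `tilt_fact`, `tilt_indep` : the tilted law `g * ∏ 1_{E k} / w k`
* `pow_le`, `ratio_le` : the plain form
* `ex_sign`, `ex_sign_glue` : deterministic signs on the explored set
-/

open Finset
open scoped Classical

namespace Vale.Agent.P148.R2.H838

open Vale.Agent.P148.R2.H953

variable {V : Type*} [Fintype V]

set_option linter.unusedSectionVars false

/-! ### Stopping sets -/

theorem isStop_union {A B : (V → Bool) → Set V} (hA : IsStop A) (hB : IsStop B) :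
    IsStop fun σ => A σ ∪ B σ := fun σ ρ h => by
  change A ρ ∪ B ρ = A σ ∪ B σ
  rw [hA σ ρ (h.mono Set.subset_union_left), hB σ ρ (h.mono Set.subset_union_right)]

theorem isStop_iUnion {ι : Sort*} {A : ι → (V → Bool) → Set V} (hA : ∀ i, IsStop (A i)) :
    IsStop fun σ => ⋃ i, A i σ := fun σ ρ h => by
  change (⋃ i, A i ρ) = ⋃ i, A i σ
  exact Set.iUnion_congr fun i => hA i σ ρ (h.mono (Set.subset_iUnion (fun i => A i σ) i))

theorem isStop_biUnion {ι : Type*} {s : Set ι} {A : ι → (V → Bool) → Set V}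
    (hA : ∀ i ∈ s, IsStop (A i)) : IsStop fun σ => ⋃ i ∈ s, A i σ := fun σ ρ h => by
  change (⋃ i ∈ s, A i ρ) = ⋃ i ∈ s, A i σ
  exact Set.iUnion₂_congr fun i hi =>
    hA i hi σ ρ (h.mono (Set.subset_biUnion_of_mem (u := fun i => A i σ) hi))

/-- Second stage: `B` is determined by the colours on `A ∪ B`. -/
theorem isStop_stage {A B : (V → Bool) → Set V} (hA : IsStop A)
    (hB : Meas (fun σ => A σ ∪ B σ) B) : IsStop fun σ => A σ ∪ B σ := fun σ ρ h => by
  change A ρ ∪ B ρ = A σ ∪ B σ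
  rw [hA σ ρ (h.mono Set.subset_union_left), hB σ ρ h]

theorem meas_on {β : Sort*} {A : (V → Bool) → Set V} {g : (V → Bool) → β} (hg : Meas A g)
    {U : Set V} (hU : ∀ σ, A σ ⊆ U) : On U g := fun σ ρ h => hg σ ρ (h.mono (hU σ))

theorem isStop_on {A : (V → Bool) → Set V} (hA : IsStop A) {U : Set V} (hU : ∀ σ, A σ ⊆ U) :
    On U A := meas_on hA hU

/-! ### Conditional means -/

/-- Conditional mean given the explored colours. -/
noncomputable def cond (A : (V → Bool) → Set V) (F : (V → Bool) → ℝ) (σ : V → Bool) : ℝ :=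
  ex fun ρ => F (glue (A σ) σ ρ)

/-- `F` is a function of the explored colours and of the colours on `B`. -/
def Loc2 {β : Sort*} (A : (V → Bool) → Set V) (B : Set V) (F : (V → Bool) → β) : Prop :=
  ∀ σ ρ, Agree (A σ) σ ρ → Agree B σ ρ → F ρ = F σ

theorem Loc2.comp {β γ : Sort*} {A : (V → Bool) → Set V} {B : Set V} {F : (V → Bool) → β}
    (h : Loc2 A B F) (f : β → γ) : Loc2 A B fun σ => f (F σ) :=
  fun σ ρ h1 h2 => congrArg f (h σ ρ h1 h2)

theorem Loc2.comp₂ {β β' γ : Sort*} {A : (V → Bool) → Set V} {B : Set V} {F : (V → Bool) → β}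
    {G : (V → Bool) → β'} (h : Loc2 A B F) (h' : Loc2 A B G) (f : β → β' → γ) :
    Loc2 A B fun σ => f (F σ) (G σ) := fun σ ρ h1 h2 => by
  change f (F ρ) (G ρ) = f (F σ) (G σ)
  rw [h σ ρ h1 h2, h' σ ρ h1 h2]

theorem Loc2.mono {β : Sort*} {A : (V → Bool) → Set V} {B B' : Set V} {F : (V → Bool) → β}
    (h : Loc2 A B F) (hB : B ⊆ B') : Loc2 A B' F := fun σ ρ h1 h2 => h σ ρ h1 (h2.mono hB)

theorem Loc2.mono' {β : Sort*} {A A' : (V → Bool) → Set V} {B : Set V} {F : (V → Bool) → β}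
    (h : Loc2 A B F) (hA : ∀ σ, A σ ⊆ A' σ) : Loc2 A' B F :=
  fun σ ρ h1 h2 => h σ ρ (h1.mono (hA σ)) h2

theorem loc2_of_meas {β : Sort*} {A : (V → Bool) → Set V} {g : (V → Bool) → β} (hg : Meas A g)
    (B : Set V) : Loc2 A B g := fun σ ρ h _ => hg σ ρ h

theorem loc2_of_on {β : Sort*} {A : (V → Bool) → Set V} {B : Set V} {g : (V → Bool) → β}
    (hg : On B g) : Loc2 A B g := fun σ ρ _ h => hg σ ρ h

theorem Loc2.prod {ι : Type*} {s : Finset ι} {A : (V → Bool) → Set V} {B : ι → Set V}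
    {F : ι → (V → Bool) → ℝ} (hF : ∀ i ∈ s, Loc2 A (B i) (F i)) :
    Loc2 A (⋃ i ∈ s, B i) fun σ => ∏ i ∈ s, F i σ :=
  fun σ ρ h1 h2 => prod_congr rfl fun i hi =>
    hF i hi σ ρ h1 (h2.mono (Set.subset_biUnion_of_mem (u := B) hi))

theorem cond_meas {A : (V → Bool) → Set V} (hA : IsStop A) (F : (V → Bool) → ℝ) :
    Meas A (cond A F) := fun σ ρ h => by
  unfold cond
  rw [hA σ ρ h]
  refine ex_congr fun τ => ?_
  rw [glue_congr (S := A σ) h.symm Agree.rfl]

theorem cond_of_meas {A : (V → Bool) → Set V} {g : (V → Bool) → ℝ} (hg : Meas A g)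
    (σ : V → Bool) : cond A g σ = g σ := by
  unfold cond
  rw [← ex_const (V := V) (g σ)]
  exact ex_congr fun ρ => hg σ _ (agree_glue _ _ _)

theorem cond_mul {A : (V → Bool) → Set V} {g : (V → Bool) → ℝ} (hg : Meas A g)
    (F : (V → Bool) → ℝ) (σ : V → Bool) :
    cond A (fun τ => g τ * F τ) σ = g σ * cond A F σ := by
  unfold cond
  rw [← ex_smul]
  refine ex_congr fun ρ => ?_
  change g (glue (A σ) σ ρ) * F (glue (A σ) σ ρ) = _
  rw [hg σ _ (agree_glue _ _ _)]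

theorem ex_cond {A : (V → Bool) → Set V} (hA : IsStop A) (F : (V → Bool) → ℝ) :
    ex (cond A F) = ex F := ex_resample hA F

theorem ex_mul_cond {A : (V → Bool) → Set V} (hA : IsStop A) {g : (V → Bool) → ℝ}
    (hg : Meas A g) (F : (V → Bool) → ℝ) :
    ex (fun σ => g σ * F σ) = ex fun σ => g σ * cond A F σ := ex_mul_resample hA hg F

theorem cond_mono {A : (V → Bool) → Set V} {F G : (V → Bool) → ℝ} (h : ∀ σ, F σ ≤ G σ)
    (σ : V → Bool) : cond A F σ ≤ cond A G σ := ex_mono fun _ => h _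

theorem cond_nonneg {A : (V → Bool) → Set V} {F : (V → Bool) → ℝ} (h : ∀ σ, 0 ≤ F σ)
    (σ : V → Bool) : 0 ≤ cond A F σ := ex_nonneg fun _ => h _

theorem cond_congr {A : (V → Bool) → Set V} {F G : (V → Bool) → ℝ} (h : ∀ σ, F σ = G σ)
    (σ : V → Bool) : cond A F σ = cond A G σ := ex_congr fun _ => h _

theorem cond_const {A : (V → Bool) → Set V} (c : ℝ) (σ : V → Bool) :
    cond A (fun _ => c) σ = c := ex_const c

theorem cond_add {A : (V → Bool) → Set V} (F G : (V → Bool) → ℝ) (σ : V → Bool) :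
    cond A (fun τ => F τ + G τ) σ = cond A F σ + cond A G σ := ex_add _ _

theorem cond_smul {A : (V → Bool) → Set V} (c : ℝ) (F : (V → Bool) → ℝ) (σ : V → Bool) :
    cond A (fun τ => c * F τ) σ = c * cond A F σ := ex_smul _ _

theorem cond_sum {ι : Type*} {A : (V → Bool) → Set V} (s : Finset ι)
    (F : ι → (V → Bool) → ℝ) (σ : V → Bool) :
    cond A (fun τ => ∑ i ∈ s, F i τ) σ = ∑ i ∈ s, cond A (F i) σ := ex_sum s _

/-- Tower property. -/
theorem cond_cond {A A' : (V → Bool) → Set V} (hA : IsStop A) (hA' : IsStop A')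
    (h : ∀ σ, A σ ⊆ A' σ) (F : (V → Bool) → ℝ) (σ : V → Bool) :
    cond A (cond A' F) σ = cond A F σ := by
  have hS : IsStop fun ρ => A' (glue (A σ) σ ρ) := by
    intro ρ ρ' hr
    refine hA' _ _ fun v hv => ?_
    by_cases h1 : v ∈ A σ
    · rw [glue_mem h1, glue_mem h1]
    · rw [glue_not_mem h1, glue_not_mem h1]
      exact hr v hv
  have e := ex_resample hS fun ρ => F (glue (A σ) σ ρ)
  unfold cond
  rw [← e]
  refine ex_congr fun ρ => ex_congr fun τ => ?_
  congr 1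
  funext v
  have h0 : A (glue (A σ) σ ρ) = A σ := hA _ _ (agree_glue _ _ _)
  by_cases h1 : v ∈ A σ
  · have h2 : v ∈ A' (glue (A σ) σ ρ) := h _ (by rw [h0]; exact h1)
    rw [glue_mem h2, glue_mem h1, glue_mem h1]
  · by_cases h2 : v ∈ A' (glue (A σ) σ ρ)
    · rw [glue_mem h2, glue_not_mem h1, glue_not_mem h1, glue_mem h2]
    · rw [glue_not_mem h2, glue_not_mem h1, glue_not_mem h2]

theorem Loc2.on_glue {β : Sort*} {A : (V → Bool) → Set V} (hA : IsStop A) {B : Set V}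
    {F : (V → Bool) → β} (hF : Loc2 A B F) (σ : V → Bool) :
    On B fun ρ => F (glue (A σ) σ ρ) := by
  intro ρ ρ' h
  have h0 : A (glue (A σ) σ ρ) = A σ := hA _ _ (agree_glue _ _ _)
  refine hF _ _ (fun v hv => ?_) fun v hv => ?_
  · rw [h0] at hv
    rw [glue_mem hv, glue_mem hv]
  · by_cases h1 : v ∈ A σ
    · rw [glue_mem h1, glue_mem h1]
    · rw [glue_not_mem h1, glue_not_mem h1]
      exact h v hv

/-- Given the explored colours the sections are independent. -/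
theorem cond_prod {κ : Type*} {A : (V → Bool) → Set V} (hA : IsStop A) (s : Finset κ)
    {B : κ → Set V} (hB : (s : Set κ).PairwiseDisjoint B) {F : κ → (V → Bool) → ℝ}
    (hF : ∀ k ∈ s, Loc2 A (B k) (F k)) (σ : V → Bool) :
    cond A (fun τ => ∏ k ∈ s, F k τ) σ = ∏ k ∈ s, cond A (F k) σ :=
  ex_prod s hB fun k hk => (hF k hk).on_glue hA σ

/-- Two disjoint regions. -/
theorem cond_mul_of_disjoint {A : (V → Bool) → Set V} (hA : IsStop A) {B C : Set V}
    (hBC : Disjoint B C) {F G : (V → Bool) → ℝ} (hF : Loc2 A B F) (hG : Loc2 A C G)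
    (σ : V → Bool) : cond A (fun τ => F τ * G τ) σ = cond A F σ * cond A G σ :=
  ex_mul_of_disjoint hBC (hF.on_glue hA σ) (hG.on_glue hA σ)

/-- **Two stages**: explored gates, then independent sections. -/
theorem two_stage {κ : Type*} {A : (V → Bool) → Set V} (hA : IsStop A) (s : Finset κ)
    {B : κ → Set V} (hB : (s : Set κ).PairwiseDisjoint B) {F : κ → (V → Bool) → ℝ}
    (hF : ∀ k ∈ s, Loc2 A (B k) (F k)) {g : (V → Bool) → ℝ} (hg : Meas A g) :
    ex (fun σ => g σ * ∏ k ∈ s, F k σ) = ex fun σ => g σ * ∏ k ∈ s, cond A (F k) σ := by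
  rw [ex_mul_cond hA hg]
  exact ex_congr fun σ => by rw [cond_prod hA s hB hF]

/-- **Locality of the section weight**: if the explored part of `B` lies in the smaller explored
set `A'` and `F` looks only at `A'` and `B`, then `cond A F = cond A' F`. -/
theorem cond_local {A A' : (V → Bool) → Set V} (hA' : IsStop A')
    (hsub : ∀ σ, A' σ ⊆ A σ) {B : Set V} (hB : ∀ σ, A σ ∩ B ⊆ A' σ) {F : (V → Bool) → ℝ}
    (hF : Loc2 A' B F) (σ : V → Bool) : cond A F σ = cond A' F σ := by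
  unfold cond
  refine ex_congr fun ρ => ?_
  have h0 : A' (glue (A' σ) σ ρ) = A' σ := hA' _ _ (agree_glue _ _ _)
  refine hF _ _ (fun v hv => ?_) fun v hv => ?_
  · rw [h0] at hv
    rw [glue_mem hv, glue_mem (hsub σ hv)]
  · by_cases h1 : v ∈ A' σ
    · rw [glue_mem h1, glue_mem (hsub σ h1)]
    · rw [glue_not_mem h1, glue_not_mem fun h2 => h1 (hB σ ⟨h2, hv⟩)]

theorem cond_local_meas {A A' : (V → Bool) → Set V} (hA' : IsStop A')
    (hsub : ∀ σ, A' σ ⊆ A σ) {B : Set V} (hB : ∀ σ, A σ ∩ B ⊆ A' σ) {F : (V → Bool) → ℝ}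
    (hF : Loc2 A' B F) : Meas A' (cond A F) := by
  rw [funext (cond_local hA' hsub hB hF)]
  exact cond_meas hA' F

/-- Family form: `A = ⋃ i, A i`; `F` looks at the gates `i ∈ N` and at `B`, the other gates do not
meet `B`. -/
theorem cond_local_fam {ι : Type*} {A : ι → (V → Bool) → Set V} (hA : ∀ i, IsStop (A i))
    {N : Set ι} {B : Set V} (hB : ∀ σ, ∀ i ∉ N, Disjoint (A i σ) B) {F : (V → Bool) → ℝ}
    (hF : Loc2 (fun σ => ⋃ i ∈ N, A i σ) B F) (σ : V → Bool) :
    cond (fun σ => ⋃ i, A i σ) F σ = cond (fun σ => ⋃ i ∈ N, A i σ) F σ := by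
  refine cond_local (isStop_biUnion fun i _ => hA i) (fun σ => ?_) (fun σ => ?_) hF σ
  · exact Set.iUnion₂_subset fun i _ => Set.subset_iUnion (fun i => A i σ) i
  · rintro v ⟨hv, hvB⟩
    obtain ⟨i, hi⟩ := Set.mem_iUnion.1 hv
    by_cases h : i ∈ N
    · exact Set.mem_biUnion h hi
    · exact (Set.disjoint_left.1 (hB σ i h) hi hvB).elim

theorem cond_local_fam_meas {ι : Type*} {A : ι → (V → Bool) → Set V} (hA : ∀ i, IsStop (A i))
    {N : Set ι} {B : Set V} (hB : ∀ σ, ∀ i ∉ N, Disjoint (A i σ) B) {F : (V → Bool) → ℝ}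
    (hF : Loc2 (fun σ => ⋃ i ∈ N, A i σ) B F) :
    Meas (fun σ => ⋃ i ∈ N, A i σ) (cond (fun σ => ⋃ i, A i σ) F) := by
  rw [funext (cond_local_fam hA hB hF)]
  exact cond_meas (isStop_biUnion fun i _ => hA i) F

/-! ### Independence of the gates -/

/-- Functions of the colours in disjoint families of regions, with a product weight. -/
theorem ex_prod_mul {ι : Type*} (t : Finset ι) {U : ι → Set V}
    (hU : (t : Set ι).PairwiseDisjoint U) {g : ι → (V → Bool) → ℝ} (hg : ∀ i ∈ t, On (U i) (g i))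
    {I J : Finset ι} (hI : I ⊆ t) (hJ : J ⊆ t) (hIJ : Disjoint I J) {Φ Ψ : (V → Bool) → ℝ}
    (hΦ : On (⋃ i ∈ I, U i) Φ) (hΨ : On (⋃ i ∈ J, U i) Ψ) :
    ex (fun σ => (∏ i ∈ t, g i σ) * (Φ σ * Ψ σ)) * ex (fun σ => ∏ i ∈ t, g i σ) =
      ex (fun σ => (∏ i ∈ t, g i σ) * Φ σ) * ex (fun σ => (∏ i ∈ t, g i σ) * Ψ σ) := by
  set R := t \ (I ∪ J) with hR
  have hsplit : t = I ∪ (J ∪ R) := by
    ext i
    simp only [hR, mem_union, mem_sdiff]
    constructor
    · intro h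
      by_cases h1 : i ∈ I
      · exact Or.inl h1
      · by_cases h2 : i ∈ J
        · exact Or.inr (Or.inl h2)
        · exact Or.inr (Or.inr ⟨h, fun h3 => h3.elim h1 h2⟩)
    · rintro (h | h | h)
      · exact hI h
      · exact hJ h
      · exact h.1
  have hJR : Disjoint J R := by
    rw [Finset.disjoint_left]
    intro i h1 h2
    exact (mem_sdiff.1 h2).2 (mem_union_right _ h1)
  have hIR : Disjoint I (J ∪ R) := by
    rw [Finset.disjoint_left]
    intro i h1 h2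
    rcases mem_union.1 h2 with h3 | h3
    · exact Finset.disjoint_left.1 hIJ h1 h3
    · exact (mem_sdiff.1 h3).2 (mem_union_left _ h1)
  have hRt : R ⊆ t := sdiff_subset
  have hdisj : ∀ {K L : Finset ι}, K ⊆ t → L ⊆ t → Disjoint K L →
      Disjoint (⋃ i ∈ K, U i) (⋃ i ∈ L, U i) := by
    intro K L hK hL hKL
    rw [Set.disjoint_iUnion₂_left]
    intro i hi
    rw [Set.disjoint_iUnion₂_right]
    intro j hj
    refine hU (hK hi) (hL hj) ?_
    rintro rfl
    exact Finset.disjoint_left.1 hKL hi hj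
  have hOn : ∀ {K : Finset ι}, K ⊆ t → On (⋃ i ∈ K, U i) fun σ => ∏ i ∈ K, g i σ :=
    fun hK => On.prod fun i hi => hg i (hK hi)
  have hfac : ∀ (a b : (V → Bool) → ℝ), On (⋃ i ∈ I, U i) a → On (⋃ i ∈ J, U i) b →
      ex (fun σ => (∏ i ∈ t, g i σ) * (a σ * b σ)) =
        ex (fun σ => (∏ i ∈ I, g i σ) * a σ) * (ex (fun σ => (∏ i ∈ J, g i σ) * b σ) *
          ex fun σ => ∏ i ∈ R, g i σ) := by
    intro a b ha hb
    have hJ2 : On (⋃ i ∈ J, U i) fun σ => (∏ i ∈ J, g i σ) * b σ := fun σ ρ h => by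
      change (∏ i ∈ J, g i ρ) * b ρ = (∏ i ∈ J, g i σ) * b σ
      have e1 := hOn hJ σ ρ h
      simp only at e1
      rw [e1, hb σ ρ h]
    have hI2 : On (⋃ i ∈ I, U i) fun σ => (∏ i ∈ I, g i σ) * a σ := fun σ ρ h => by
      change (∏ i ∈ I, g i ρ) * a ρ = (∏ i ∈ I, g i σ) * a σ
      have e1 := hOn hI σ ρ h
      simp only at e1
      rw [e1, ha σ ρ h]
    rw [← ex_mul_of_disjoint (hdisj hJ hRt hJR) hJ2 (hOn hRt)]
    rw [← ex_mul_of_disjoint (S := ⋃ i ∈ I, U i) (T := (⋃ i ∈ J, U i) ∪ ⋃ i ∈ R, U i) ?_ hI2 ?_]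
    · refine ex_congr fun σ => ?_
      have e1 : ∏ i ∈ t, g i σ = (∏ i ∈ I, g i σ) * ((∏ i ∈ J, g i σ) * ∏ i ∈ R, g i σ) := by
        conv_lhs => rw [hsplit]
        rw [prod_union hIR, prod_union hJR]
      rw [e1]
      ring
    · rw [Set.disjoint_union_right]
      exact ⟨hdisj hI hJ hIJ, hdisj hI hRt (hIR.mono_right (by simp))⟩
    · intro σ ρ h
      change (∏ i ∈ J, g i ρ) * b ρ * ∏ i ∈ R, g i ρ = (∏ i ∈ J, g i σ) * b σ * ∏ i ∈ R, g i σ
      have e1 := hJ2 σ ρ (h.mono Set.subset_union_left)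
      have e2 := hOn hRt σ ρ (h.mono Set.subset_union_right)
      simp only at e1 e2
      rw [e1, e2]
  have h1 := hfac Φ Ψ hΦ hΨ
  have h2 := hfac (fun _ => 1) (fun _ => 1) (fun _ _ _ => rfl) fun _ _ _ => rfl
  have h3 := hfac Φ (fun _ => 1) hΦ fun _ _ _ => rfl
  have h4 := hfac (fun _ => 1) Ψ (fun _ _ _ => rfl) hΨ
  simp only [mul_one, one_mul] at h1 h2 h3 h4
  rw [h1, h2, h3, h4]
  ring

/-! ### The tilted law -/

section tilt

variable {κ : Type*} {A : (V → Bool) → Set V} {s : Finset κ} {B : κ → Set V}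
  {E : κ → (V → Bool) → ℝ} {g : (V → Bool) → ℝ}

/-- The tilted density: `g` times the normalised section weights. -/
noncomputable def dens (A : (V → Bool) → Set V) (s : Finset κ) (E : κ → (V → Bool) → ℝ)
    (g : (V → Bool) → ℝ) (σ : V → Bool) : ℝ := g σ * ∏ k ∈ s, E k σ / cond A (E k) σ

/-- The normalised weight of a group of sections. -/
noncomputable def grp (A : (V → Bool) → Set V) (J : Finset κ) (E : κ → (V → Bool) → ℝ)
    (f : (V → Bool) → ℝ) (σ : V → Bool) : ℝ := cond A (fun τ => f τ * ∏ k ∈ J, E k τ) σ /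
      ∏ k ∈ J, cond A (E k) σ

theorem grp_meas (hA : IsStop A) (J : Finset κ) (E : κ → (V → Bool) → ℝ)
    (f : (V → Bool) → ℝ) : Meas A (grp A J E f) := fun σ ρ h => by
  unfold grp
  rw [cond_meas hA _ σ ρ h]
  congr 1
  exact prod_congr rfl fun k _ => cond_meas hA _ σ ρ h

/-- **Means under the tilted law**: `f` looks at the explored colours and at the sections in `J`. -/
theorem tilt_fact (hA : IsStop A) (hB : (s : Set κ).PairwiseDisjoint B)
    (hE : ∀ k ∈ s, Loc2 A (B k) (E k)) (hg : Meas A g)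
    (h0 : ∀ σ, g σ ≠ 0 → ∀ k ∈ s, cond A (E k) σ ≠ 0) {J K : Finset κ} (hJ : J ⊆ s) (hK : K ⊆ s)
    (hJK : Disjoint J K) {f f' : (V → Bool) → ℝ} (hf : Loc2 A (⋃ k ∈ J, B k) f)
    (hf' : Loc2 A (⋃ k ∈ K, B k) f') :
    ex (fun σ => dens A s E g σ * (f σ * f' σ)) =
      ex fun σ => g σ * (grp A J E f σ * grp A K E f' σ) := by
  set R := s \ (J ∪ K) with hR
  have hsplit : s = J ∪ (K ∪ R) := by
    ext i
    simp only [hR, mem_union, mem_sdiff]
    constructor
    · intro h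
      by_cases h1 : i ∈ J
      · exact Or.inl h1
      · by_cases h2 : i ∈ K
        · exact Or.inr (Or.inl h2)
        · exact Or.inr (Or.inr ⟨h, fun h3 => h3.elim h1 h2⟩)
    · rintro (h | h | h)
      · exact hJ h
      · exact hK h
      · exact h.1
  have hKR : Disjoint K R := by
    rw [Finset.disjoint_left]
    intro i h1 h2
    exact (mem_sdiff.1 h2).2 (mem_union_right _ h1)
  have hJR : Disjoint J (K ∪ R) := by
    rw [Finset.disjoint_left]
    intro i h1 h2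
    rcases mem_union.1 h2 with h3 | h3
    · exact Finset.disjoint_left.1 hJK h1 h3
    · exact (mem_sdiff.1 h3).2 (mem_union_left _ h1)
  have hRs : R ⊆ s := sdiff_subset
  have hdisj : ∀ {K L : Finset κ}, K ⊆ s → L ⊆ s → Disjoint K L →
      Disjoint (⋃ i ∈ K, B i) (⋃ i ∈ L, B i) := by
    intro K L hK hL hKL
    rw [Set.disjoint_iUnion₂_left]
    intro i hi
    rw [Set.disjoint_iUnion₂_right]
    intro j hj
    refine hB (hK hi) (hL hj) ?_
    rintro rfl
    exact Finset.disjoint_left.1 hKL hi hj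
  have hLp : ∀ {K : Finset κ}, K ⊆ s → Loc2 A (⋃ i ∈ K, B i) fun σ => ∏ i ∈ K, E i σ :=
    fun hK => Loc2.prod fun i hi => hE i (hK hi)
  -- the weight is explored
  set W : (V → Bool) → ℝ := fun σ => (∏ k ∈ s, cond A (E k) σ)⁻¹ with hW
  have hWm : Meas A W := fun σ ρ h => by
    change (∏ k ∈ s, cond A (E k) ρ)⁻¹ = (∏ k ∈ s, cond A (E k) σ)⁻¹
    congr 1
    exact prod_congr rfl fun k _ => cond_meas hA _ σ ρ h
  have hgW : Meas A fun σ => g σ * W σ := hg.comp₂ hWm _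
  have e1 : ∀ σ, dens A s E g σ * (f σ * f' σ) = g σ * W σ *
      ((f σ * ∏ k ∈ J, E k σ) * ((f' σ * ∏ k ∈ K, E k σ) * ∏ k ∈ R, E k σ)) := by
    intro σ
    unfold dens
    rw [prod_div_distrib]
    have e2 : ∏ k ∈ s, E k σ = (∏ k ∈ J, E k σ) * ((∏ k ∈ K, E k σ) * ∏ k ∈ R, E k σ) := by
      conv_lhs => rw [hsplit]
      rw [prod_union hJR, prod_union hKR]
    rw [e2]
    simp only [hW]
    rw [div_eq_mul_inv]
    ring
  rw [ex_congr e1, ex_mul_cond hA hgW]
  refine ex_congr fun σ => ?_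
  rw [cond_mul_of_disjoint hA (B := ⋃ i ∈ J, B i) (C := (⋃ i ∈ K, B i) ∪ ⋃ i ∈ R, B i) ?_
    (hf.comp₂ (hLp hJ) fun a b => a * b)
    (((hf'.comp₂ (hLp hK) fun a b => a * b).mono Set.subset_union_left).comp₂
      ((hLp hRs).mono Set.subset_union_right) fun a b => a * b)]
  · rw [cond_mul_of_disjoint hA (hdisj hK hRs hKR) (hf'.comp₂ (hLp hK) fun a b => a * b)
      (hLp hRs)]
    rw [cond_prod hA R (hB.subset (by exact_mod_cast hRs)) fun k hk => hE k (hRs hk)]
    by_cases hg0 : g σ = 0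
    · rw [hg0]; simp
    · have h1 := h0 σ hg0
      have hwJ : ∏ k ∈ J, cond A (E k) σ ≠ 0 := prod_ne_zero_iff.2 fun k hk => h1 k (hJ hk)
      have hwK : ∏ k ∈ K, cond A (E k) σ ≠ 0 := prod_ne_zero_iff.2 fun k hk => h1 k (hK hk)
      have hwR : ∏ k ∈ R, cond A (E k) σ ≠ 0 := prod_ne_zero_iff.2 fun k hk => h1 k (hRs hk)
      have e3 : W σ = ((∏ k ∈ J, cond A (E k) σ) * ((∏ k ∈ K, cond A (E k) σ) *
          ∏ k ∈ R, cond A (E k) σ))⁻¹ := by
        simp only [hW]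
        congr 1
        conv_lhs => rw [hsplit]
        rw [prod_union hJR, prod_union hKR]
      rw [e3]
      unfold grp
      field_simp
  · rw [Set.disjoint_union_right]
    exact ⟨hdisj hJ hK hJK, hdisj hJ hRs (hJR.mono_right (by simp))⟩

theorem tilt_fact₁ (hA : IsStop A) (hB : (s : Set κ).PairwiseDisjoint B)
    (hE : ∀ k ∈ s, Loc2 A (B k) (E k)) (hg : Meas A g)
    (h0 : ∀ σ, g σ ≠ 0 → ∀ k ∈ s, cond A (E k) σ ≠ 0) {J : Finset κ} (hJ : J ⊆ s)
    {f : (V → Bool) → ℝ} (hf : Loc2 A (⋃ k ∈ J, B k) f) :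
    ex (fun σ => dens A s E g σ * f σ) = ex fun σ => g σ * grp A J E f σ := by
  have h := tilt_fact (K := ∅) hA hB hE hg h0 hJ (by simp) (by simp) hf
    (f' := fun _ => 1) fun _ _ _ _ => rfl
  simp only [mul_one] at h
  rw [h]
  refine ex_congr fun σ => ?_
  have : grp A (∅ : Finset κ) E (fun _ => 1) σ = 1 := by
    unfold grp
    simp [cond_const]
  rw [this, mul_one]

/-- The tilted density has the mass of `g`. -/
theorem tilt_ex (hA : IsStop A) (hB : (s : Set κ).PairwiseDisjoint B)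
    (hE : ∀ k ∈ s, Loc2 A (B k) (E k)) (hg : Meas A g)
    (h0 : ∀ σ, g σ ≠ 0 → ∀ k ∈ s, cond A (E k) σ ≠ 0) : ex (dens A s E g) = ex g := by
  have h := tilt_fact₁ (J := ∅) hA hB hE hg h0 (by simp) (f := fun _ => 1) fun _ _ _ _ => rfl
  simp only [mul_one] at h
  rw [h]
  refine ex_congr fun σ => ?_
  have : grp A (∅ : Finset κ) E (fun _ => 1) σ = 1 := by
    unfold grp
    simp [cond_const]
  rw [this, mul_one]

/-- Explored functions. -/
theorem tilt_meas (hA : IsStop A) (hB : (s : Set κ).PairwiseDisjoint B)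
    (hE : ∀ k ∈ s, Loc2 A (B k) (E k)) (hg : Meas A g)
    (h0 : ∀ σ, g σ ≠ 0 → ∀ k ∈ s, cond A (E k) σ ≠ 0) {f : (V → Bool) → ℝ} (hf : Meas A f) :
    ex (fun σ => dens A s E g σ * f σ) = ex fun σ => g σ * f σ := by
  rw [tilt_fact₁ (J := ∅) hA hB hE hg h0 (by simp) (fun σ ρ h _ => hf σ ρ h)]
  refine ex_congr fun σ => ?_
  unfold grp
  simp only [prod_empty, mul_one, div_one]
  rw [cond_of_meas hf]

end tilt

/-- **Independence under the tilted law.** Gates `i ∈ t` with stopping sets `A i σ ⊆ U i` in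
disjoint regions and weights `g i`; sections `k ∈ s` in disjoint regions `B k`. If the means
`grp .. f`, `grp .. f'` depend on disjoint sets of gates (`cond_local_fam`), then `f` and `f'` are
independent. -/
theorem tilt_indep {ι κ : Type*} {A : (V → Bool) → Set V} (hA : IsStop A) {t : Finset ι}
    {U : ι → Set V} (hU : (t : Set ι).PairwiseDisjoint U) {g : ι → (V → Bool) → ℝ}
    (hg : ∀ i ∈ t, On (U i) (g i)) (hgA : Meas A fun σ => ∏ i ∈ t, g i σ)
    {s : Finset κ} {B : κ → Set V} (hB : (s : Set κ).PairwiseDisjoint B)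
    {E : κ → (V → Bool) → ℝ} (hE : ∀ k ∈ s, Loc2 A (B k) (E k))
    (h0 : ∀ σ, (∏ i ∈ t, g i σ) ≠ 0 → ∀ k ∈ s, cond A (E k) σ ≠ 0) {J K : Finset κ}
    (hJ : J ⊆ s) (hK : K ⊆ s) (hJK : Disjoint J K) {f f' : (V → Bool) → ℝ}
    (hf : Loc2 A (⋃ k ∈ J, B k) f) (hf' : Loc2 A (⋃ k ∈ K, B k) f') {I I' : Finset ι}
    (hI : I ⊆ t) (hI' : I' ⊆ t) (hII : Disjoint I I')
    (hfI : On (⋃ i ∈ I, U i) (grp A J E f)) (hfI' : On (⋃ i ∈ I', U i) (grp A K E f')) :
    ex (fun σ => dens A s E (fun σ => ∏ i ∈ t, g i σ) σ * (f σ * f' σ)) *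
        ex (dens A s E fun σ => ∏ i ∈ t, g i σ) =
      ex (fun σ => dens A s E (fun σ => ∏ i ∈ t, g i σ) σ * f σ) *
        ex (fun σ => dens A s E (fun σ => ∏ i ∈ t, g i σ) σ * f' σ) := by
  rw [tilt_fact hA hB hE hgA h0 hJ hK hJK hf hf', tilt_ex hA hB hE hgA h0,
    tilt_fact₁ hA hB hE hgA h0 hJ hf, tilt_fact₁ hA hB hE hgA h0 hK hf']
  exact ex_prod_mul t hU hg hI hI' hII hfI hfI'

/-! ### The plain form -/

section plain

variable {κ : Type*} {A : (V → Bool) → Set V} {s : Finset κ} {B : κ → Set V}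
  {E : κ → (V → Bool) → ℝ} {g : (V → Bool) → ℝ}

/-- All sections succeed with probability at least `c ^ m` given the gates. -/
theorem pow_le (hA : IsStop A) (hB : (s : Set κ).PairwiseDisjoint B)
    (hE : ∀ k ∈ s, Loc2 A (B k) (E k)) (hg : Meas A g) (hg0 : ∀ σ, 0 ≤ g σ) {c : ℝ} (hc : 0 ≤ c)
    (h : ∀ σ, g σ ≠ 0 → ∀ k ∈ s, c ≤ cond A (E k) σ) :
    c ^ s.card * ex g ≤ ex fun σ => g σ * ∏ k ∈ s, E k σ := by
  rw [two_stage hA s hB hE hg, ← ex_smul]
  refine ex_mono fun σ => ?_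
  by_cases h1 : g σ = 0
  · rw [h1]; simp
  · rw [mul_comm]
    refine mul_le_mul_of_nonneg_left ?_ (hg0 σ)
    calc c ^ s.card = ∏ _k ∈ s, c := (prod_const c).symm
      _ ≤ _ := prod_le_prod (fun _ _ => hc) fun k hk => h σ h1 k hk

/-- **Ratio bound**: a nonnegative function `f` of the explored colours and of the sections in `J`
with conditional mean at most `M`, under the event that all sections succeed. -/
theorem ratio_le (hA : IsStop A) (hB : (s : Set κ).PairwiseDisjoint B)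
    (hE : ∀ k ∈ s, Loc2 A (B k) (E k)) (hE0 : ∀ k ∈ s, ∀ σ, 0 ≤ E k σ)
    (hE1 : ∀ k ∈ s, ∀ σ, E k σ ≤ 1) (hg : Meas A g) (hg0 : ∀ σ, 0 ≤ g σ) {J : Finset κ}
    (hJ : J ⊆ s) {f : (V → Bool) → ℝ} (hf : Loc2 A (⋃ k ∈ J, B k) f) (hf0 : ∀ σ, 0 ≤ f σ)
    {M c : ℝ} (hc : 0 < c) (hM : ∀ σ, g σ ≠ 0 → cond A f σ ≤ M)
    (h : ∀ σ, g σ ≠ 0 → ∀ k ∈ J, c ≤ cond A (E k) σ) :
    ex (fun σ => g σ * (f σ * ∏ k ∈ s, E k σ)) ≤
      M / c ^ J.card * ex fun σ => g σ * ∏ k ∈ s, E k σ := by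
  have hsplit : s = J ∪ s \ J := (union_sdiff_of_subset hJ).symm
  have hd : Disjoint J (s \ J) := disjoint_sdiff
  have hsub : s \ J ⊆ s := sdiff_subset
  have hprod : ∀ τ, ∏ k ∈ s, E k τ = (∏ k ∈ J, E k τ) * ∏ k ∈ s \ J, E k τ := by
    intro τ
    conv_lhs => rw [hsplit]
    rw [prod_union hd]
  have h1 : ex (fun σ => g σ * (f σ * ∏ k ∈ s, E k σ)) ≤
      ex fun σ => g σ * (f σ * ∏ k ∈ s \ J, E k σ) := by
    refine ex_mono fun σ => mul_le_mul_of_nonneg_left (mul_le_mul_of_nonneg_left ?_ (hf0 σ)) (hg0 σ)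
    rw [hprod]
    have h2 : ∏ k ∈ J, E k σ ≤ 1 :=
      prod_le_one (fun k hk => hE0 k (hJ hk) σ) fun k hk => hE1 k (hJ hk) σ
    exact mul_le_of_le_one_left (prod_nonneg fun k hk => hE0 k (hsub hk) σ) h2
  refine h1.trans ?_
  rw [ex_mul_cond hA hg]
  have hdis : Disjoint (⋃ k ∈ J, B k) (⋃ k ∈ s \ J, B k) := by
    rw [Set.disjoint_iUnion₂_left]
    intro i hi
    rw [Set.disjoint_iUnion₂_right]
    intro j hj
    refine hB (hJ hi) (hsub hj) ?_
    rintro rfl
    exact Finset.disjoint_left.1 hd hi hj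
  have e2 : ∀ σ, cond A (fun τ => f τ * ∏ k ∈ s \ J, E k τ) σ =
      cond A f σ * ∏ k ∈ s \ J, cond A (E k) σ := by
    intro σ
    rw [cond_mul_of_disjoint hA hdis hf (Loc2.prod fun k hk => hE k (hsub hk))]
    rw [cond_prod hA _ (hB.subset (by exact_mod_cast hsub)) fun k hk => hE k (hsub hk)]
  rw [two_stage hA s hB hE hg, ← ex_smul]
  refine ex_mono fun σ => ?_
  rw [e2]
  by_cases hg1 : g σ = 0
  · rw [hg1]; simp
  have hw0 : ∀ k ∈ s, 0 ≤ cond A (E k) σ := fun k hk => cond_nonneg (hE0 k hk) σ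
  have hP : 0 ≤ ∏ k ∈ s \ J, cond A (E k) σ := prod_nonneg fun k hk => hw0 k (hsub hk)
  have hM0 : 0 ≤ M := (cond_nonneg hf0 σ).trans (hM σ hg1)
  have hpow : c ^ J.card ≤ ∏ k ∈ J, cond A (E k) σ := by
    calc c ^ J.card = ∏ _k ∈ J, c := (prod_const c).symm
      _ ≤ _ := prod_le_prod (fun _ _ => hc.le) fun k hk => h σ hg1 k hk
  have hprod2 : ∏ k ∈ s, cond A (E k) σ =
      (∏ k ∈ J, cond A (E k) σ) * ∏ k ∈ s \ J, cond A (E k) σ := by
    conv_lhs => rw [hsplit]
    rw [prod_union hd]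
  rw [hprod2]
  have hc' : 0 < c ^ J.card := pow_pos hc _
  calc g σ * (cond A f σ * ∏ k ∈ s \ J, cond A (E k) σ)
      ≤ g σ * (M * ∏ k ∈ s \ J, cond A (E k) σ) :=
        mul_le_mul_of_nonneg_left (mul_le_mul_of_nonneg_right (hM σ hg1) hP) (hg0 σ)
    _ = M / c ^ J.card * (g σ * (c ^ J.card * ∏ k ∈ s \ J, cond A (E k) σ)) := by
        field_simp
    _ ≤ M / c ^ J.card * (g σ * ((∏ k ∈ J, cond A (E k) σ) *
          ∏ k ∈ s \ J, cond A (E k) σ)) := by
        refine mul_le_mul_of_nonneg_left ?_ (div_nonneg hM0 hc'.le)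
        exact mul_le_mul_of_nonneg_left (mul_le_mul_of_nonneg_right hpow hP) (hg0 σ)

end plain

/-! ### Deterministic signs -/

theorem isStop_flip {R : (V → Bool) → Set V} (hR : IsStop R) (S : V → Prop) :
    IsStop fun σ => R (H953.flip S σ) := by
  intro σ ρ h
  refine hR _ _ fun v hv => ?_
  unfold H953.flip
  rw [h v hv]

/-- **Signs on the explored set**: recolour the explored vertices by deterministic signs (flip on
`S`) and the others by an independent fair colouring: the result is fair. -/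
theorem ex_sign_glue {R : (V → Bool) → Set V} (hR : IsStop R) (S : V → Prop)
    (f : (V → Bool) → ℝ) :
    (ex fun σ => ex fun ρ => f (glue (R σ) (H953.flip S σ) ρ)) = ex f := by
  rw [← ex_flip S fun σ => ex fun ρ => f (glue (R σ) (H953.flip S σ) ρ)]
  rw [← ex_resample (isStop_flip hR S) f]
  refine ex_congr fun σ => ex_congr fun ρ => ?_
  rw [flip_invol S σ]

/-- The same with the other colours unchanged. -/
theorem ex_sign {R : (V → Bool) → Set V} (hR : IsStop R) (S : V → Prop)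
    (f : (V → Bool) → ℝ) :
    (ex fun σ => f (glue (R σ) (H953.flip S σ) σ)) = ex f := by
  rw [← ex_sign_glue hR S f]
  have h1 := ex_resample hR fun σ => f (glue (R σ) (H953.flip S σ) σ)
  rw [← h1]
  refine ex_congr fun σ => ex_congr fun ρ => ?_
  rw [hR _ _ (agree_glue (R σ) σ ρ)]
  congr 1
  funext v
  by_cases hv : v ∈ R σ
  · rw [glue_mem hv, glue_mem hv]
    unfold H953.flip
    rw [glue_mem hv]
  · rw [glue_not_mem hv, glue_not_mem hv, glue_not_mem hv]

/-- Conditional form: the explored function `g` and any function of the recoloured configuration;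
under the flip the stopping set `R` becomes `R ∘ flip`. -/
theorem ex_sign_mul_le {R : (V → Bool) → Set V} (hR : IsStop R) (S : V → Prop)
    {g f : (V → Bool) → ℝ} {C : ℝ} (hgC : ∀ σ, g σ ≤ C)
    (hf0 : ∀ σ, 0 ≤ f σ) :
    (ex fun σ => ex fun ρ => g σ * f (glue (R σ) (H953.flip S σ) ρ)) ≤ C * ex f := by
  rw [← ex_sign_glue hR S f, ← ex_smul]
  refine ex_mono fun σ => ?_
  rw [← ex_smul]
  exact ex_mono fun ρ => mul_le_mul_of_nonneg_right (hgC σ) (hf0 _)

end Vale.Agent.P148.R2.H838
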