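import Vale.Agent.P148.R2.H678.Hub
import Vale.Agent.P148.R2.H838.Comp

/-!
# P148, row LAW: the explored sets and the law of the composite colouring

* `RJ r S J W` : white (`W`) clusters of the seeds `S`, never entering `J`, with their neighbours; the
  seeds themselves are not revealed. It only depends on the colours on itself.
* `comp H E c₁ c₂ c₃` : `c₁` on the hubs `H c₁`, `c₂` off the hubs on the explored set `E`, `c₃` off `E`.
* `comp_fair`, `comp_le`, `sgn_fair`, `sgn_le` : exact fairness and density bounds.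
* `bar` : the density as a function of the explored colours of the composite.
-/

open Finset Relation
open scoped Classical

namespace Vale.Agent.P148.R2.H838

open Vale.Agent.P148.R2.H953 Vale.Agent.P148.R2.H678

set_option linter.unusedSectionVars false

/-! ### Explored sets -/

section Reach

variable {α : Type*} (r : α → α → Prop) (S J W : Set α)

/-- Steps which do not enter `J`. -/
def offJ (u v : α) : Prop := r u v ∧ v ∉ J

/-- The white clusters of the seeds `S`, off `J` (with the seeds). -/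
def reach : Set α := core (offJ r J) S W

/-- The explored set: `reach` and its neighbours, off `J`, without the seeds. -/
def RJ : Set α := hub (offJ r J) S W \ S

variable {r S J W}

theorem core_seed {r : α → α → Prop} {S C : Set α} : core r S (C ∪ S) = core r S C := by
  apply Set.Subset.antisymm
  · refine core_sub _ seed_core fun u hu v huv hv => ?_
    rcases hv with hv | hv
    · exact core_step hu huv hv
    · exact seed_core hv
  · exact core_mono Set.subset_union_left

theorem hub_seed {r : α → α → Prop} {S C : Set α} : hub r S (C ∪ S) = hub r S C := by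
  unfold hub
  rw [core_seed]

theorem RJ_agree {W' : Set α} (h : ∀ v ∈ RJ r S J W, (v ∈ W' ↔ v ∈ W)) :
    ∀ v ∈ hub (offJ r J) S (W ∪ S), (v ∈ W' ∪ S ↔ v ∈ W ∪ S) := by
  intro v hv
  by_cases hS : v ∈ S
  · exact ⟨fun _ => Or.inr hS, fun _ => Or.inr hS⟩
  · have h1 := h v ⟨by rwa [hub_seed] at hv, hS⟩
    constructor
    · rintro (h2 | h2)
      · exact Or.inl (h1.1 h2)
      · exact Or.inr h2
    · rintro (h2 | h2)
      · exact Or.inl (h1.2 h2)
      · exact Or.inr h2

/-- The reached set is determined by the colours on `RJ`. -/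
theorem reach_congr {W' : Set α} (h : ∀ v ∈ RJ r S J W, (v ∈ W' ↔ v ∈ W)) :
    reach r S J W' = reach r S J W := by
  have h1 := core_congr (RJ_agree h)
  rwa [core_seed, core_seed] at h1

theorem RJ_congr {W' : Set α} (h : ∀ v ∈ RJ r S J W, (v ∈ W' ↔ v ∈ W)) :
    RJ r S J W' = RJ r S J W := by
  have h1 := hub_congr (RJ_agree h)
  rw [hub_seed, hub_seed] at h1
  unfold RJ
  rw [h1]

theorem RJ_not_seed {v : α} (h : v ∈ RJ r S J W) : v ∉ S := h.2

theorem core_offJ {v : α} (hv : v ∈ reach r S J W) (hS : v ∉ S) : v ∉ J ∧ v ∈ W := by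
  obtain ⟨s, hs, hsv⟩ := hv
  rcases ReflTransGen.cases_tail hsv with h | ⟨c, _, hcv⟩
  · rw [h] at hS
    exact absurd hs hS
  · exact ⟨hcv.1.2, hcv.2⟩

theorem RJ_not_mem {v : α} (h : v ∈ RJ r S J W) : v ∉ J := by
  rcases h.1 with hv | ⟨u, _, huv⟩
  · exact (core_offJ hv h.2).1
  · exact huv.2

theorem reach_sub_RJ {v : α} (h : v ∈ reach r S J W) (hS : v ∉ S) : v ∈ RJ r S J W :=
  ⟨core_sub_hub h, hS⟩

/-- A white explored point is reached. -/
theorem reach_of_white {v : α} (h : v ∈ RJ r S J W) (hW : v ∈ W) : v ∈ reach r S J W := by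
  rcases h.1 with hv | ⟨u, hu, huv⟩
  · exact hv
  · exact core_step hu huv hW

/-- An explored point off `reach` is not white. -/
theorem not_white {v : α} (h : v ∈ RJ r S J W) (hr : v ∉ reach r S J W) : v ∉ W :=
  fun hW => hr (reach_of_white h hW)

/-- Neighbours of a reached point are seeds, explored, or in `J`. -/
theorem reach_nbr {u v : α} (hu : u ∈ reach r S J W) (huv : r u v) (hS : v ∉ S) (hJ : v ∉ J) :
    v ∈ RJ r S J W := ⟨hub_step hu ⟨huv, hJ⟩, hS⟩

/-- Points next to a seed are explored. -/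
theorem seed_nbr {u v : α} (hu : u ∈ S) (huv : r u v) (hS : v ∉ S) (hJ : v ∉ J) :
    v ∈ RJ r S J W := reach_nbr (seed_core hu) huv hS hJ

/-- **The boundary of the unexplored part is black**: an explored neighbour of an unexplored point
(off the seeds and off `J`) is not white. -/
theorem RJ_nbr {u v : α} (hv : v ∉ RJ r S J W) (hS : v ∉ S) (hJ : v ∉ J)
    (hu : u ∈ RJ r S J W) (huv : r u v) : u ∉ W :=
  fun hW => hv (reach_nbr (reach_of_white hu hW) huv hS hJ)

theorem RJ_nbr_not_seed {u v : α} (hv : v ∉ RJ r S J W) (hS : v ∉ S) (hJ : v ∉ J)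
    (huv : r u v) : u ∉ S := fun hu => hv (seed_nbr hu huv hS hJ)

theorem offJ_mono {J' : Set α} (h : J' ⊆ J) {u v : α} (huv : offJ r J u v) : offJ r J' u v :=
  ⟨huv.1, fun hv => huv.2 (h hv)⟩

theorem reach_anti {J' : Set α} (h : J' ⊆ J) : reach r S J W ⊆ reach r S J' W :=
  core_sub _ seed_core fun _ hu _ huv hv => core_step hu (offJ_mono h huv) hv

/-- A larger forbidden region gives a smaller explored set. -/
theorem RJ_anti {J' : Set α} (h : J' ⊆ J) : RJ r S J W ⊆ RJ r S J' W := by
  rintro v ⟨hv | ⟨u, hu, huv⟩, hS⟩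
  · exact ⟨core_sub_hub (reach_anti h hv), hS⟩
  · exact ⟨hub_step (reach_anti h hu) (offJ_mono h huv), hS⟩

/-- Locality: the explored set off `J` does not look at `J`. -/
theorem RJ_off {W' : Set α} (h : ∀ v ∉ J, v ∉ S → (v ∈ W' ↔ v ∈ W)) :
    RJ r S J W' = RJ r S J W := RJ_congr fun v hv => h v (RJ_not_mem hv) hv.2

/-- A white chain off `J` from a reached point is reached. -/
theorem reach_chain {n : ℕ} {v : ℕ → α} (h0 : v 0 ∈ reach r S J W)
    (hv : ∀ i < n, r (v i) (v (i + 1))) (hW : ∀ i, 0 < i → i ≤ n → v i ∈ W ∧ v i ∉ J) :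
    ∀ i ≤ n, v i ∈ reach r S J W := by
  intro i
  induction i with
  | zero => exact fun _ => h0
  | succ i ih =>
    intro hi
    exact core_step (ih (by omega)) ⟨hv i (by omega), (hW (i + 1) (by omega) hi).2⟩
      (hW (i + 1) (by omega) hi).1

end Reach

/-! ### Stopping sets from hubs -/

variable {V : Type*} [Fintype V]

/-- The white points of a colouring (`false` is white). -/
def wh (s : V → Bool) : Set V := {v | s v = false}

/-- The black points. -/
def bl (s : V → Bool) : Set V := {v | s v = true}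

theorem wh_agree {A : Set V} {s t : V → Bool} (h : Agree A s t) :
    ∀ v ∈ A, (v ∈ wh t ↔ v ∈ wh s) := fun v hv => by
  change (t v = false ↔ s v = false)
  rw [h v hv]

theorem bl_agree {A : Set V} {s t : V → Bool} (h : Agree A s t) :
    ∀ v ∈ A, (v ∈ bl t ↔ v ∈ bl s) := fun v hv => by
  change (t v = true ↔ s v = true)
  rw [h v hv]

theorem isStop_RJ (r : V → V → Prop) (S J : Set V) : IsStop fun s => RJ r S J (wh s) :=
  fun _ _ h => RJ_congr (wh_agree h)

theorem isStop_hub_wh (r : V → V → Prop) (S : Set V) : IsStop fun s => hub r S (wh s) :=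
  fun _ _ h => hub_congr (wh_agree h)

theorem isStop_hub_bl (r : V → V → Prop) (S : Set V) : IsStop fun s => hub r S (bl s) :=
  fun _ _ h => hub_congr (bl_agree h)

theorem meas_reach (r : V → V → Prop) (S J : Set V) :
    Meas (fun s => RJ r S J (wh s)) fun s => reach r S J (wh s) :=
  fun _ _ h => reach_congr (wh_agree h)

/-! ### The composite -/

/-- The first composite: `c₁` on the hubs, `c₂` off them. -/
noncomputable def s12 (H : (V → Bool) → Set V) (c₁ c₂ : V → Bool) : V → Bool :=
  glue (H c₁) c₁ c₂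

/-- The composite: the first composite on the explored set `E`, `c₃` off it. -/
noncomputable def comp (H E : (V → Bool) → Set V) (c₁ c₂ c₃ : V → Bool) : V → Bool :=
  glue (E (s12 H c₁ c₂)) (s12 H c₁ c₂) c₃

/-- The composite with the colours of the region `Sg` flipped on the explored set. -/
noncomputable def sgn (H E : (V → Bool) → Set V) (Sg : V → Prop) (c₁ c₂ c₃ : V → Bool) :
    V → Bool := glue (E (s12 H c₁ c₂)) (H953.flip Sg (s12 H c₁ c₂)) c₃

section comp

variable {H E : (V → Bool) → Set V}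

theorem H_s12 (hH : IsStop H) (c₁ c₂ : V → Bool) : H (s12 H c₁ c₂) = H c₁ :=
  hH _ _ (agree_glue _ _ _)

theorem E_comp (hE : IsStop E) (c₁ c₂ c₃ : V → Bool) :
    E (comp H E c₁ c₂ c₃) = E (s12 H c₁ c₂) := hE _ _ (agree_glue _ _ _)

/-- A smaller stopping set sees the same colours in the composite. -/
theorem meas_comp {β : Sort*} {E' : (V → Bool) → Set V} {g : (V → Bool) → β} (hg : Meas E' g)
    {c₁ c₂ : V → Bool} (c₃ : V → Bool) (h : E' (s12 H c₁ c₂) ⊆ E (s12 H c₁ c₂)) :
    g (comp H E c₁ c₂ c₃) = g (s12 H c₁ c₂) :=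
  hg _ _ ((agree_glue _ _ _).mono h)

theorem s12_fair (hH : IsStop H) (F : (V → Bool) → ℝ) :
    (ex fun c₁ => ex fun c₂ => F (s12 H c₁ c₂)) = ex F := ex_resample hH F

/-- **The composite colouring is fair.** -/
theorem comp_fair (hH : IsStop H) (hE : IsStop E) (F : (V → Bool) → ℝ) :
    (ex fun c₁ => ex fun c₂ => ex fun c₃ => F (comp H E c₁ c₂ c₃)) = ex F := by
  have h1 := s12_fair hH fun s => ex fun c₃ => F (glue (E s) s c₃)
  rw [← ex_resample hE F, ← h1]
  rfl

theorem sgn_fair (hH : IsStop H) (hE : IsStop E) (Sg : V → Prop) (F : (V → Bool) → ℝ) :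
    (ex fun c₁ => ex fun c₂ => ex fun c₃ => F (sgn H E Sg c₁ c₂ c₃)) = ex F := by
  have h1 := s12_fair hH fun s => ex fun c₃ => F (glue (E s) (H953.flip Sg s) c₃)
  rw [← ex_sign_glue hE Sg F, ← h1]
  rfl

/-- **Density bound.** -/
theorem comp_le (hH : IsStop H) (hE : IsStop E) {D : (V → Bool) → (V → Bool) → ℝ} {C : ℝ}
    (hD : ∀ c₁ c₂, D c₁ c₂ ≤ C) {F : (V → Bool) → ℝ} (hF : ∀ s, 0 ≤ F s) :
    (ex fun c₁ => ex fun c₂ => ex fun c₃ => D c₁ c₂ * F (comp H E c₁ c₂ c₃)) ≤ C * ex F := by
  rw [← comp_fair hH hE F, ← ex_smul]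
  refine ex_mono fun c₁ => ?_
  rw [← ex_smul]
  refine ex_mono fun c₂ => ?_
  rw [← ex_smul]
  exact ex_mono fun c₃ => mul_le_mul_of_nonneg_right (hD _ _) (hF _)

theorem sgn_le (hH : IsStop H) (hE : IsStop E) (Sg : V → Prop)
    {D : (V → Bool) → (V → Bool) → ℝ} {C : ℝ}
    (hD : ∀ c₁ c₂, D c₁ c₂ ≤ C) {F : (V → Bool) → ℝ} (hF : ∀ s, 0 ≤ F s) :
    (ex fun c₁ => ex fun c₂ => ex fun c₃ => D c₁ c₂ * F (sgn H E Sg c₁ c₂ c₃)) ≤ C * ex F := by
  rw [← sgn_fair hH hE Sg F, ← ex_smul]
  refine ex_mono fun c₁ => ?_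
  rw [← ex_smul]
  refine ex_mono fun c₂ => ?_
  rw [← ex_smul]
  exact ex_mono fun c₃ => mul_le_mul_of_nonneg_right (hD _ _) (hF _)

/-! ### The density as a function of the composite -/

/-- Mean of the density given the first composite. -/
noncomputable def bar1 (H : (V → Bool) → Set V) (D : (V → Bool) → (V → Bool) → ℝ)
    (s : V → Bool) : ℝ := ex fun t => D (glue (H s) s t) (glue (H s) t s)

/-- Mean of the density given the explored colours of the composite. -/
noncomputable def bar (H E : (V → Bool) → Set V) (D : (V → Bool) → (V → Bool) → ℝ) :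
    (V → Bool) → ℝ := cond E (bar1 H D)

theorem bar1_mul (hH : IsStop H) (D : (V → Bool) → (V → Bool) → ℝ) (F : (V → Bool) → ℝ) :
    (ex fun c₁ => ex fun c₂ => D c₁ c₂ * F (s12 H c₁ c₂)) = ex fun s => bar1 H D s * F s := by
  have h := ex2_swap hH fun s t => D (glue (H s) s t) (glue (H s) t s) * F s
  have h2 : (ex fun s => ex fun t => D (glue (H s) s t) (glue (H s) t s) * F s) =
      ex fun s => bar1 H D s * F s := by
    refine ex_congr fun s => ?_
    unfold bar1
    rw [← ex_mul_const]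
  rw [← h2, ← h]
  refine ex_congr fun c₁ => ex_congr fun c₂ => ?_
  have e0 : H (glue (H c₁) c₁ c₂) = H c₁ := hH _ _ (agree_glue _ _ _)
  have e1 : glue (H (glue (H c₁) c₁ c₂)) (glue (H c₁) c₁ c₂) (glue (H c₁) c₂ c₁) = c₁ := by
    rw [e0]
    funext v
    by_cases hv : v ∈ H c₁
    · rw [glue_mem hv, glue_mem hv]
    · rw [glue_not_mem hv, glue_not_mem hv]
  have e2 : glue (H (glue (H c₁) c₁ c₂)) (glue (H c₁) c₂ c₁) (glue (H c₁) c₁ c₂) = c₂ := by
    rw [e0]
    funext v
    by_cases hv : v ∈ H c₁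
    · rw [glue_mem hv, glue_mem hv]
    · rw [glue_not_mem hv, glue_not_mem hv]
  rw [e1, e2]
  rfl

/-- **The law of the composite under the density.** -/
theorem bar_mul (hH : IsStop H) (hE : IsStop E) (D : (V → Bool) → (V → Bool) → ℝ)
    (F : (V → Bool) → ℝ) :
    (ex fun c₁ => ex fun c₂ => ex fun c₃ => D c₁ c₂ * F (comp H E c₁ c₂ c₃)) =
      ex fun w => bar H E D w * F w := by
  have h1 : (ex fun c₁ => ex fun c₂ => ex fun c₃ => D c₁ c₂ * F (comp H E c₁ c₂ c₃)) =
      ex fun s => bar1 H D s * ex fun c₃ => F (glue (E s) s c₃) := by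
    rw [← bar1_mul hH D fun s => ex fun c₃ => F (glue (E s) s c₃)]
    refine ex_congr fun c₁ => ex_congr fun c₂ => ?_
    rw [← ex_smul]
    rfl
  rw [h1]
  have h2 : Meas E fun s => ex fun c₃ => F (glue (E s) s c₃) := cond_meas hE F
  have h3 := ex_mul_cond hE h2 (bar1 H D)
  have h4 := ex_mul_cond hE (cond_meas hE (bar1 H D)) F
  unfold bar
  rw [h4]
  refine Eq.trans (ex_congr fun s => mul_comm _ _) (h3.trans (ex_congr fun s => mul_comm _ _))

theorem bar_meas (hE : IsStop E) (D : (V → Bool) → (V → Bool) → ℝ) : Meas E (bar H E D) :=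
  cond_meas hE _

/-- Recolouring the unexplored part does not change the density. -/
theorem bar_blind (hE : IsStop E) (D : (V → Bool) → (V → Bool) → ℝ) {w w' : V → Bool}
    (h : Agree (E w) w w') : bar H E D w' = bar H E D w := bar_meas hE D _ _ h

theorem ex_bar (hH : IsStop H) (hE : IsStop E) (D : (V → Bool) → (V → Bool) → ℝ) :
    ex (bar H E D) = ex fun c₁ => ex fun c₂ => D c₁ c₂ := by
  have h := bar_mul hH hE D fun _ => 1
  simp only [mul_one] at h
  rw [show bar H E D = fun w => bar H E D w from rfl, ← h]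
  exact ex_congr fun c₁ => ex_congr fun c₂ => ex_const _

theorem bar_le {D : (V → Bool) → (V → Bool) → ℝ} {M : ℝ} (hD : ∀ c₁ c₂, D c₁ c₂ ≤ M)
    (w : V → Bool) : bar H E D w ≤ M := by
  unfold bar cond bar1
  calc _ ≤ ex (fun _ : V → Bool => ex fun _ : V → Bool => M) :=
        ex_mono fun _ => ex_mono fun _ => hD _ _
    _ = M := by rw [ex_const, ex_const]

theorem le_bar {D : (V → Bool) → (V → Bool) → ℝ} {m : ℝ} (hD : ∀ c₁ c₂, m ≤ D c₁ c₂)
    (w : V → Bool) : m ≤ bar H E D w := by
  unfold bar cond bar1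
  calc m = ex (fun _ : V → Bool => ex fun _ : V → Bool => m) := by rw [ex_const, ex_const]
    _ ≤ _ := ex_mono fun _ => ex_mono fun _ => hD _ _

/-- On the support of the density the configuration is a composite of good colourings. -/
theorem exists_of_bar (hH : IsStop H) (hE : IsStop E) {D : (V → Bool) → (V → Bool) → ℝ}
    {w : V → Bool} (h : bar H E D w ≠ 0) :
    ∃ c₁ c₂, D c₁ c₂ ≠ 0 ∧ comp H E c₁ c₂ w = w ∧ E (s12 H c₁ c₂) = E w := by
  by_contra hcon
  push Not at hcon
  apply h
  unfold bar cond bar1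
  have key : ∀ c₃ t : V → Bool, D (glue (H (glue (E w) w c₃)) (glue (E w) w c₃) t)
      (glue (H (glue (E w) w c₃)) t (glue (E w) w c₃)) = 0 := by
    intro c₃ t
    by_contra hne
    set s := glue (E w) w c₃ with hs
    have e0 : H (glue (H s) s t) = H s := hH _ _ (agree_glue _ _ _)
    have e1 : s12 H (glue (H s) s t) (glue (H s) t s) = s := by
      unfold s12
      rw [e0]
      funext v
      by_cases hv : v ∈ H s
      · rw [glue_mem hv, glue_mem hv]
      · rw [glue_not_mem hv, glue_not_mem hv]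
    have e2 : E s = E w := hE _ _ (agree_glue _ _ _)
    refine hcon _ _ hne ?_ ?_
    · unfold comp
      rw [e1, e2]
      funext v
      by_cases hv : v ∈ E w
      · rw [glue_mem hv, hs, glue_mem hv]
      · rw [glue_not_mem hv]
    · rw [e1, e2]
  simp only [key]
  rw [ex_const, ex_const]

end comp

/-! ### The conditioned product law -/

/-- The density of the pair `(c₁, c₂)` conditioned on the events `A` and `B`. -/
noncomputable def qd (A B : (V → Bool) → Prop) (c₁ c₂ : V → Bool) : ℝ :=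
  (if A c₁ then 1 else 0) * (if B c₂ then 1 else 0) / (pr A * pr B)

theorem qd_nonneg (A B : (V → Bool) → Prop) (c₁ c₂ : V → Bool) : 0 ≤ qd A B c₁ c₂ := by
  unfold qd
  have h1 := pr_nonneg A
  have h2 := pr_nonneg B
  split_ifs <;> positivity

theorem qd_le {A B : (V → Bool) → Prop} (c₁ c₂ : V → Bool) :
    qd A B c₁ c₂ ≤ 1 / (pr A * pr B) := by
  unfold qd
  refine div_le_div_of_nonneg_right ?_ (mul_nonneg (pr_nonneg A) (pr_nonneg B))
  split_ifs <;> norm_num

theorem qd_ex {A B : (V → Bool) → Prop} (hA : pr A ≠ 0) (hB : pr B ≠ 0) :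
    (ex fun c₁ => ex fun c₂ => qd A B c₁ c₂) = 1 := by
  have h1 : ∀ c₁ : V → Bool, (ex fun c₂ => qd A B c₁ c₂) = (if A c₁ then 1 else 0) / pr A := by
    intro c₁
    have h2 : (ex fun c₂ => qd A B c₁ c₂) =
        (if A c₁ then 1 else 0) / (pr A * pr B) * pr B := by
      unfold pr
      rw [← ex_smul]
      refine ex_congr fun c₂ => ?_
      unfold qd pr
      ring
    rw [h2]
    field_simp
  simp only [h1, div_eq_mul_inv]
  rw [ex_mul_const]
  exact mul_inv_cancel₀ hA

theorem qd_ne {A B : (V → Bool) → Prop} {c₁ c₂ : V → Bool} (h : qd A B c₁ c₂ ≠ 0) :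
    A c₁ ∧ B c₂ := by
  unfold qd at h
  by_contra hcon
  rw [not_and_or] at hcon
  rcases hcon with h1 | h1
  · rw [if_neg h1] at h; simp at h
  · rw [if_neg h1] at h; simp at h

end Vale.Agent.P148.R2.H838
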