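import Vale.Agent.P148.R2.H838.X2

/-!
# Strong Markov property at a stopping set, mean form
-/

namespace Vale.Agent.P148.R2.H838

open Function

variable {V : Type*} [Fintype V]

open Classical in
/-- **Strong Markov property** for fair colourings, sum form.  `A σ` is a stopping set; `G σ₀ σ` depends
on `σ₀` only through its restriction to `A σ₀`, and on `σ` only through its restriction to the complement
of `A σ₀`. -/
theorem sum_stop {M : Type*} [AddCommMonoid M] {A : (V → Bool) → Set V}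
    (hA : ∀ σ σ', (∀ v ∈ A σ, σ' v = σ v) → A σ' = A σ)
    {G : (V → Bool) → (V → Bool) → M}
    (hG1 : ∀ σ₀ σ₀' τ, (∀ v ∈ A σ₀, σ₀' v = σ₀ v) → G σ₀' τ = G σ₀ τ)
    (hG2 : ∀ σ₀ τ τ', (∀ v ∉ A σ₀, τ' v = τ v) → G σ₀ τ' = G σ₀ τ) :
    (2 ^ Fintype.card V) • ∑ σ : V → Bool, G σ σ = ∑ σ : V → Bool, ∑ τ : V → Bool, G σ τ := by
  set Ψ : (V → Bool) × (V → Bool) → (V → Bool) × (V → Bool) :=
    fun p => (mix (A p.1) p.1 p.2, mix (A p.1) p.2 p.1) with hΨ
  have hA1 : ∀ p : (V → Bool) × (V → Bool), A (mix (A p.1) p.1 p.2) = A p.1 := by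
    intro p
    apply hA
    intro v hv
    rw [mix_mem hv]
  have hinv : Function.Involutive Ψ := by
    intro p
    simp only [hΨ, hA1]
    apply Prod.ext
    · funext v
      by_cases hv : v ∈ A p.1
      · simp [mix, hv]
      · simp [mix, hv]
    · funext v
      by_cases hv : v ∈ A p.1
      · simp [mix, hv]
      · simp [mix, hv]
  have hsum : ∑ p : (V → Bool) × (V → Bool), G (Ψ p).1 (Ψ p).1 =
      ∑ p : (V → Bool) × (V → Bool), G p.1 p.1 :=
    Equiv.sum_comp (hinv.toPerm) (fun p : (V → Bool) × (V → Bool) => G p.1 p.1)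
  have h1 : ∑ p : (V → Bool) × (V → Bool), G p.1 p.1 =
      (2 ^ Fintype.card V) • ∑ σ : V → Bool, G σ σ := by
    rw [Fintype.sum_prod_type, Finset.smul_sum]
    apply Finset.sum_congr rfl
    intro σ _
    simp only [Finset.sum_const, Finset.card_univ, Fintype.card_fun, Fintype.card_bool]
  rw [← h1, ← hsum, Fintype.sum_prod_type]
  apply Finset.sum_congr rfl
  intro σ _
  apply Finset.sum_congr rfl
  intro τ _
  have e1 : G (Ψ (σ, τ)).1 (Ψ (σ, τ)).1 = G σ (Ψ (σ, τ)).1 := by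
    apply hG1
    intro v hv
    simp only [hΨ]
    rw [mix_mem hv]
  rw [e1]
  apply hG2
  intro v hv
  simp only [hΨ]
  rw [mix_not_mem hv]

open Classical in
/-- Lower bound form: if, whatever has been explored, the fresh event has probability at least `c`, then
the mean of an explored quantity is at most `1/c` times its mean on the event. -/
theorem stop_lower {A : (V → Bool) → Set V}
    (hA : ∀ σ σ', (∀ v ∈ A σ, σ' v = σ v) → A σ' = A σ)
    {f : (V → Bool) → ℝ} (hf0 : ∀ σ, 0 ≤ f σ) (hf : ∀ σ σ', (∀ v ∈ A σ, σ' v = σ v) → f σ' = f σ)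
    {N : (V → Bool) → (V → Bool) → Prop}
    (hN1 : ∀ σ₀ σ₀' τ, (∀ v ∈ A σ₀, σ₀' v = σ₀ v) → (N σ₀' τ ↔ N σ₀ τ))
    (hN2 : ∀ σ₀ τ τ', (∀ v ∉ A σ₀, τ' v = τ v) → (N σ₀ τ' ↔ N σ₀ τ))
    {c : ℝ} (hc : ∀ σ, f σ ≠ 0 → c ≤ pr (N σ)) (E : (V → Bool) → Prop) (hE : ∀ σ, N σ σ → E σ) :
    c * ∑ σ : V → Bool, f σ ≤ ∑ σ : V → Bool, if E σ then f σ else 0 := by
  have h := sum_stop hA (G := fun σ τ => if N σ τ then f σ else 0)
    (by
      intro σ₀ σ₀' τ hσ
      simp only [hN1 σ₀ σ₀' τ hσ, hf σ₀ σ₀' hσ])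
    (by
      intro σ₀ τ τ' hσ
      simp only [hN2 σ₀ τ τ' hσ])
  have hpos : (0 : ℝ) < 2 ^ Fintype.card V := by positivity
  have h2 : ∀ σ : V → Bool, c * f σ * 2 ^ Fintype.card V ≤
      ∑ τ : V → Bool, (if N σ τ then f σ else 0) := by
    intro σ
    by_cases hz : f σ = 0
    · simp [hz]
    · have h3 := hc σ hz
      rw [pr_eq_sum, le_div_iff₀ hpos] at h3
      have h4 : ∑ τ : V → Bool, (if N σ τ then f σ else 0) =
          f σ * ∑ τ : V → Bool, (if N σ τ then (1 : ℝ) else 0) := by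
        rw [Finset.mul_sum]
        apply Finset.sum_congr rfl
        intro τ _
        split_ifs <;> ring
      rw [h4]
      have := mul_le_mul_of_nonneg_left h3 (hf0 σ)
      linarith
  have h3 : (c * ∑ σ : V → Bool, f σ) * 2 ^ Fintype.card V ≤
      (∑ σ : V → Bool, if N σ σ then f σ else 0) * 2 ^ Fintype.card V := by
    calc (c * ∑ σ : V → Bool, f σ) * 2 ^ Fintype.card V
        = ∑ σ : V → Bool, c * f σ * 2 ^ Fintype.card V := by rw [← Finset.sum_mul, ← Finset.mul_sum]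
      _ ≤ ∑ σ : V → Bool, ∑ τ : V → Bool, (if N σ τ then f σ else 0) :=
          Finset.sum_le_sum (fun σ _ => h2 σ)
      _ = _ := by
          rw [← h, nsmul_eq_mul, mul_comm]
          push_cast
          ring
  have h4 := le_of_mul_le_mul_right h3 hpos
  refine h4.trans (Finset.sum_le_sum (fun σ _ => ?_))
  by_cases hn : N σ σ
  · rw [if_pos hn, if_pos (hE σ hn)]
  · rw [if_neg hn]
    split_ifs
    · exact hf0 σ
    · exact le_rfl

open Classical in
/-- Upper bound form: if, whatever has been explored, the fresh quantity has mean at most `K`, then the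
mean of (explored) times (fresh) is at most `K` times the mean of the explored one. -/
theorem stop_upper {A : (V → Bool) → Set V}
    (hA : ∀ σ σ', (∀ v ∈ A σ, σ' v = σ v) → A σ' = A σ)
    {f : (V → Bool) → ℝ} (hf0 : ∀ σ, 0 ≤ f σ) (hf : ∀ σ σ', (∀ v ∈ A σ, σ' v = σ v) → f σ' = f σ)
    {g : (V → Bool) → (V → Bool) → ℝ}
    (hg1 : ∀ σ₀ σ₀' τ, (∀ v ∈ A σ₀, σ₀' v = σ₀ v) → g σ₀' τ = g σ₀ τ)
    (hg2 : ∀ σ₀ τ τ', (∀ v ∉ A σ₀, τ' v = τ v) → g σ₀ τ' = g σ₀ τ)
    {K : ℝ} (hK : ∀ σ, f σ ≠ 0 → ∑ τ : V → Bool, g σ τ ≤ K * 2 ^ Fintype.card V) :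
    ∑ σ : V → Bool, f σ * g σ σ ≤ K * ∑ σ : V → Bool, f σ := by
  have h := sum_stop hA (G := fun σ τ => f σ * g σ τ)
    (by
      intro σ₀ σ₀' τ hσ
      simp only [hg1 σ₀ σ₀' τ hσ, hf σ₀ σ₀' hσ])
    (by
      intro σ₀ τ τ' hσ
      simp only [hg2 σ₀ τ τ' hσ])
  have hpos : (0 : ℝ) < 2 ^ Fintype.card V := by positivity
  have h2 : ∀ σ : V → Bool, ∑ τ : V → Bool, f σ * g σ τ ≤ K * f σ * 2 ^ Fintype.card V := by
    intro σ
    by_cases hz : f σ = 0
    · simp [hz]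
    · rw [← Finset.mul_sum]
      have := mul_le_mul_of_nonneg_left (hK σ hz) (hf0 σ)
      linarith
  have h3 : (∑ σ : V → Bool, f σ * g σ σ) * 2 ^ Fintype.card V ≤
      (K * ∑ σ : V → Bool, f σ) * 2 ^ Fintype.card V := by
    calc (∑ σ : V → Bool, f σ * g σ σ) * 2 ^ Fintype.card V
        = ∑ σ : V → Bool, ∑ τ : V → Bool, f σ * g σ τ := by
          rw [← h, nsmul_eq_mul, mul_comm]
          push_cast
          ring
      _ ≤ ∑ σ : V → Bool, K * f σ * 2 ^ Fintype.card V := Finset.sum_le_sum (fun σ _ => h2 σ)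
      _ = _ := by rw [← Finset.sum_mul, ← Finset.mul_sum]
  exact le_of_mul_le_mul_right h3 hpos

end Vale.Agent.P148.R2.H838
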