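import Vale.Agent.P148.R2.H838.NearLaw

/-!
# P148, row CAL: fairness of the signed composite with two location sign sets

`Hub k` stopping sets inside the boxes `HB k`, `U` their union. The first coin `c₁` is flipped at the
locations `S₁`, the second coin `c₂` at the locations `S₂`:
`sg2 c₁ c₂ = glue (U c₁) (flip S₁ c₁) (flip S₂ c₂) = enc (s12 U c₁ c₂)`.

* `enc`, `dec` : coding and decoding, inverse bijections (`dec_enc`, `enc_dec`, `ex_enc`).
* `isStop_dec` : `E ∘ dec` is a stopping set if every location of `E s` has the same sign for both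
  coins, or is off the boxes of the hubs which are not explored completely.
* `cal_fair`, `cal_le`, `cal_unif` : the signed composite is fair.
-/

open Finset
open scoped Classical

namespace Vale.Agent.P148.R2.H838

open Vale.Agent.P148.R2.H953

set_option linter.unusedSectionVars false

variable {V : Type*} [Fintype V]

/-! ### Coding -/

section enc

variable (U : (V → Bool) → Set V) (S₁ S₂ : V → Prop)

/-- Flip `S₁` on the hubs, `S₂` off the hubs. -/
noncomputable def enc (s : V → Bool) : V → Bool :=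
  glue (U s) (H953.flip S₁ s) (H953.flip S₂ s)

/-- The inverse of `enc`. -/
noncomputable def dec (t : V → Bool) : V → Bool :=
  glue (U (H953.flip S₁ t)) (H953.flip S₁ t) (H953.flip S₂ t)

/-- The signed first composite. -/
noncomputable def sg2 (c₁ c₂ : V → Bool) : V → Bool :=
  glue (U c₁) (H953.flip S₁ c₁) (H953.flip S₂ c₂)

variable {U S₁ S₂}

theorem flip_flip (S : V → Prop) (s : V → Bool) : H953.flip S (H953.flip S s) = s :=
  flip_invol S s

theorem flip_apply_flip (S : V → Prop) {s t : V → Bool} {v : V} (h : t v = H953.flip S s v) :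
    H953.flip S t v = s v := by
  unfold H953.flip at h ⊢
  split_ifs at h ⊢
  · rw [h, Bool.not_not]
  · exact h

theorem enc_hub {s : V → Bool} {v : V} (h : v ∈ U s) : enc U S₁ S₂ s v = H953.flip S₁ s v :=
  glue_mem h

theorem enc_off {s : V → Bool} {v : V} (h : v ∉ U s) : enc U S₁ S₂ s v = H953.flip S₂ s v :=
  glue_not_mem h

/-- At a location with the same sign for both coins. -/
theorem enc_same {s : V → Bool} {v : V} (h : S₁ v ↔ S₂ v) :
    enc U S₁ S₂ s v = H953.flip S₁ s v := by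
  by_cases hv : v ∈ U s
  · exact enc_hub hv
  · rw [enc_off hv]
    unfold H953.flip
    by_cases h1 : S₁ v
    · rw [if_pos h1, if_pos (h.1 h1)]
    · rw [if_neg h1, if_neg fun h2 => h1 (h.2 h2)]

theorem enc_pos {s : V → Bool} {v : V} (h1 : S₁ v) (h2 : S₂ v) :
    enc U S₁ S₂ s v = !s v := by
  rw [enc_same ⟨fun _ => h2, fun _ => h1⟩]
  exact if_pos h1

theorem enc_neg {s : V → Bool} {v : V} (h1 : ¬ S₁ v) (h2 : ¬ S₂ v) :
    enc U S₁ S₂ s v = s v := by
  rw [enc_same ⟨fun h => absurd h h1, fun h => absurd h h2⟩]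
  exact if_neg h1

variable (hU : IsStop U)

include hU

theorem U_dec (t : V → Bool) : U (dec U S₁ S₂ t) = U (H953.flip S₁ t) :=
  hU _ _ (agree_glue _ _ _)

theorem sg2_eq (c₁ c₂ : V → Bool) : sg2 U S₁ S₂ c₁ c₂ = enc U S₁ S₂ (s12 U c₁ c₂) := by
  unfold sg2 enc
  rw [H_s12 hU]
  funext v
  by_cases hv : v ∈ U c₁
  · rw [glue_mem hv, glue_mem hv]
    unfold H953.flip s12
    rw [glue_mem hv]
  · rw [glue_not_mem hv, glue_not_mem hv]
    unfold H953.flip s12
    rw [glue_not_mem hv]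

theorem enc_dec (t : V → Bool) : enc U S₁ S₂ (dec U S₁ S₂ t) = t := by
  funext v
  by_cases hv : v ∈ U (dec U S₁ S₂ t)
  · rw [enc_hub hv]
    refine flip_apply_flip S₁ ?_
    rw [U_dec hU] at hv
    exact glue_mem hv
  · rw [enc_off hv]
    refine flip_apply_flip S₂ ?_
    rw [U_dec hU] at hv
    exact glue_not_mem hv

theorem U_flip_enc (s : V → Bool) : U (H953.flip S₁ (enc U S₁ S₂ s)) = U s := by
  refine hU s _ fun v hv => ?_
  exact flip_apply_flip S₁ (enc_hub hv)

theorem dec_enc (s : V → Bool) : dec U S₁ S₂ (enc U S₁ S₂ s) = s := by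
  funext v
  unfold dec
  rw [U_flip_enc hU]
  by_cases hv : v ∈ U s
  · rw [glue_mem hv]
    exact flip_apply_flip S₁ (enc_hub hv)
  · rw [glue_not_mem hv]
    exact flip_apply_flip S₂ (enc_off hv)

theorem dec_sg2 (c₁ c₂ : V → Bool) : dec U S₁ S₂ (sg2 U S₁ S₂ c₁ c₂) = s12 U c₁ c₂ := by
  rw [sg2_eq hU, dec_enc hU]

/-- Coding preserves fairness. -/
theorem ex_enc (F : (V → Bool) → ℝ) : (ex fun s => F (enc U S₁ S₂ s)) = ex F :=
  ex_equiv ⟨enc U S₁ S₂, dec U S₁ S₂, dec_enc hU, enc_dec hU⟩ F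

theorem ex_dec (F : (V → Bool) → ℝ) : (ex fun t => F (dec U S₁ S₂ t)) = ex F :=
  ex_equiv ⟨dec U S₁ S₂, enc U S₁ S₂, enc_dec hU, dec_enc hU⟩ F

/-- **The signed composite is fair**, if the explored set is a stopping set of the coded colouring. -/
theorem enc_fair {E : (V → Bool) → Set V} (hE : IsStop fun t => E (dec U S₁ S₂ t))
    (F : (V → Bool) → ℝ) :
    (ex fun s => ex fun t => F (glue (E s) (enc U S₁ S₂ s) t)) = ex F := by
  rw [← ex_resample hE F,
    ← ex_dec (S₁ := S₁) (S₂ := S₂) hU fun s => ex fun t => F (glue (E s) (enc U S₁ S₂ s) t)]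
  refine ex_congr fun s => ex_congr fun t => ?_
  rw [enc_dec hU]

end enc

/-! ### Hubs -/

section hubs

variable {κ : Type*} {Hub : κ → (V → Bool) → Set V} {S₁ S₂ : V → Prop}
  {E : (V → Bool) → Set V} (hst : ∀ k, IsStop (Hub k))

/-- The explored set is decodable: every location of it has one sign for both coins, or every hub
which can contain it is explored completely. -/
def Decod (Hub : κ → (V → Bool) → Set V) (S₁ S₂ : V → Prop) (E : (V → Bool) → Set V) : Prop :=
  ∀ s, ∀ v ∈ E s, (S₁ v ↔ S₂ v) ∨ ∀ k, Hub k s ⊆ E s ∨ ∀ u, v ∉ Hub k u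

include hst

theorem isStop_dec (hE : IsStop E) (hD : Decod Hub S₁ S₂ E) :
    IsStop fun t => E (dec (fun s => ⋃ k, Hub k s) S₁ S₂ t) := by
  set U : (V → Bool) → Set V := fun s => ⋃ k, Hub k s with hUdef
  have hU : IsStop U := isStop_iUnion hst
  intro t t' h
  dsimp only at h ⊢
  refine hE _ _ fun v hv => ?_
  have ht : t' v = t v := h v hv
  have hf : ∀ S : V → Prop, H953.flip S t' v = H953.flip S t v := by
    intro S
    unfold H953.flip
    rw [ht]
  rcases hD _ v hv with hS | hk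
  · -- one sign
    have h1 : ∀ u : V → Bool, dec U S₁ S₂ u v = H953.flip S₁ u v := by
      intro u
      unfold dec
      by_cases hm : v ∈ U (H953.flip S₁ u)
      · rw [glue_mem hm]
      · rw [glue_not_mem hm]
        unfold H953.flip
        by_cases h1 : S₁ v
        · rw [if_pos h1, if_pos (hS.1 h1)]
        · rw [if_neg h1, if_neg fun h2 => h1 (hS.2 h2)]
    rw [h1, h1, hf]
  · -- hub membership is decoded
    have hmem : v ∈ U (H953.flip S₁ t') ↔ v ∈ U (H953.flip S₁ t) := by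
      have key : ∀ k, (v ∈ Hub k (H953.flip S₁ t') ↔ v ∈ Hub k (H953.flip S₁ t)) := by
        intro k
        rcases hk k with hk | hk
        · have e1 : Hub k (dec U S₁ S₂ t) = Hub k (H953.flip S₁ t) := by
            refine hst k _ _ ?_
            exact (agree_glue _ _ _).mono (Set.subset_iUnion (fun k => Hub k (H953.flip S₁ t)) k)
          have e2 : Hub k (H953.flip S₁ t') = Hub k (H953.flip S₁ t) := by
            refine hst k _ _ fun u hu => ?_
            have h2 : t' u = t u := h u (hk (by rw [e1]; exact hu))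
            unfold H953.flip
            rw [h2]
          rw [e2]
        · exact ⟨fun h => absurd h (hk _), fun h => absurd h (hk _)⟩
      simp only [hUdef, Set.mem_iUnion]
      exact exists_congr key
    unfold dec
    by_cases hm : v ∈ U (H953.flip S₁ t)
    · rw [glue_mem hm, glue_mem (hmem.2 hm), hf]
    · rw [glue_not_mem hm, glue_not_mem fun h2 => hm (hmem.1 h2), hf]

/-- **The signed composite is fair.** -/
theorem cal_fair (hE : IsStop E) (hD : Decod Hub S₁ S₂ E) (F : (V → Bool) → ℝ) :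
    (ex fun c₁ => ex fun c₂ => ex fun c₃ => F (glue (E (s12 (fun s => ⋃ k, Hub k s) c₁ c₂))
      (sg2 (fun s => ⋃ k, Hub k s) S₁ S₂ c₁ c₂) c₃)) = ex F := by
  have hU : IsStop fun s => ⋃ k, Hub k s := isStop_iUnion hst
  rw [← enc_fair (S₁ := S₁) (S₂ := S₂) hU (isStop_dec hst hE hD) F,
    ← s12_fair hU fun s => ex fun t =>
      F (glue (E s) (enc (fun s => ⋃ k, Hub k s) S₁ S₂ s) t)]
  refine ex_congr fun c₁ => ex_congr fun c₂ => ex_congr fun c₃ => ?_
  rw [sg2_eq hU]

/-- **Density bound**; `H` is any hub set which agrees with the union of the hubs on the support of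
the weight (hubs truncated at their boxes). -/
theorem cal_le (hE : IsStop E) (hD : Decod Hub S₁ S₂ E) {H : (V → Bool) → Set V}
    {D : (V → Bool) → (V → Bool) → ℝ} {C : ℝ} (hDC : ∀ c₁ c₂, D c₁ c₂ ≤ C) (hC0 : 0 ≤ C)
    (hH : ∀ c₁ c₂, D c₁ c₂ ≠ 0 → H c₁ = ⋃ k, Hub k c₁)
    {F : (V → Bool) → ℝ} (hF : ∀ s, 0 ≤ F s) :
    (ex fun c₁ => ex fun c₂ => ex fun c₃ => D c₁ c₂ *
      F (glue (E (s12 H c₁ c₂)) (sg2 H S₁ S₂ c₁ c₂) c₃)) ≤ C * ex F := by
  rw [← cal_fair hst hE hD F, ← ex_smul]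
  refine ex_mono fun c₁ => ?_
  rw [← ex_smul]
  refine ex_mono fun c₂ => ?_
  rw [← ex_smul]
  refine ex_mono fun c₃ => ?_
  by_cases h : D c₁ c₂ = 0
  · rw [h, zero_mul]
    exact mul_nonneg hC0 (hF _)
  · have e := hH c₁ c₂ h
    unfold s12 sg2
    rw [e]
    exact mul_le_mul_of_nonneg_right (hDC _ _) (hF _)

omit hst in
/-- Complete hubs `t`, the other hubs truncated at their boxes. -/
theorem decod_of {HB : κ → Set V} (t : Set κ) (ht : ∀ k ∈ t, ∀ s, Hub k s ⊆ E s)
    (hamb : ∀ s, ∀ v ∈ E s, ∀ k ∉ t, v ∈ HB k → (S₁ v ↔ S₂ v)) :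
    Decod (fun k => if k ∈ t then Hub k else trunc (HB k) (Hub k)) S₁ S₂ E := by
  intro s v hv
  by_cases h : ∃ k ∉ t, v ∈ HB k
  · obtain ⟨k, hk, hvk⟩ := h
    exact Or.inl (hamb s v hv k hk hvk)
  · push Not at h
    right
    intro k
    by_cases hk : k ∈ t
    · left
      simp only [if_pos hk]
      exact ht k hk s
    · right
      intro u hu
      simp only [if_neg hk] at hu
      exact h k hk (trunc_sub _ _ _ hu)

theorem isStop_mixed {HB : κ → Set V} (t : Set κ) (k : κ) :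
    IsStop (if k ∈ t then Hub k else trunc (HB k) (Hub k)) := by
  split_ifs
  · exact hst k
  · exact isStop_trunc (hst k)

/-- **The form used by the scenes**: the hubs in `t` are explored completely, the locations of `E` in
the boxes of the other hubs have one sign for both coins, the weight lives on configurations whose
hubs stay in their boxes. -/
theorem cal_le_of {HB : κ → Set V} (t : Set κ) (hE : IsStop E)
    (ht : ∀ k ∈ t, ∀ s, Hub k s ⊆ E s)
    (hamb : ∀ s, ∀ v ∈ E s, ∀ k ∉ t, v ∈ HB k → (S₁ v ↔ S₂ v))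
    {D : (V → Bool) → (V → Bool) → ℝ} {C : ℝ} (hDC : ∀ c₁ c₂, D c₁ c₂ ≤ C) (hC0 : 0 ≤ C)
    (hbox : ∀ c₁ c₂, D c₁ c₂ ≠ 0 → ∀ k, Hub k c₁ ⊆ HB k)
    {F : (V → Bool) → ℝ} (hF : ∀ s, 0 ≤ F s) :
    (ex fun c₁ => ex fun c₂ => ex fun c₃ => D c₁ c₂ *
      F (glue (E (s12 (fun s => ⋃ k, Hub k s) c₁ c₂))
        (sg2 (fun s => ⋃ k, Hub k s) S₁ S₂ c₁ c₂) c₃)) ≤ C * ex F := by
  refine cal_le (Hub := fun k => if k ∈ t then Hub k else trunc (HB k) (Hub k))
    (fun k => isStop_mixed hst t k) hE (decod_of t ht hamb) hDC hC0 (fun c₁ c₂ h => ?_) hF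
  refine Set.iUnion_congr fun k => ?_
  by_cases hk : k ∈ t
  · rw [if_pos hk]
  · rw [if_neg hk, trunc_eq (hbox c₁ c₂ h k)]

/-- The same for two coins only (no fresh colouring): any `F ≥ 0` of the coded colouring. -/
theorem cal_le_two {D : (V → Bool) → (V → Bool) → ℝ} {C : ℝ} (hDC : ∀ c₁ c₂, D c₁ c₂ ≤ C)
    {F : (V → Bool) → ℝ} (hF : ∀ s, 0 ≤ F s) :
    (ex fun c₁ => ex fun c₂ => D c₁ c₂ * F (sg2 (fun s => ⋃ k, Hub k s) S₁ S₂ c₁ c₂)) ≤
      C * ex F := by
  have hU : IsStop fun s => ⋃ k, Hub k s := isStop_iUnion hst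
  have h1 : (ex fun c₁ => ex fun c₂ => F (sg2 (fun s => ⋃ k, Hub k s) S₁ S₂ c₁ c₂)) = ex F := by
    rw [← ex_enc (S₁ := S₁) (S₂ := S₂) hU F,
      ← s12_fair hU fun s => F (enc (fun s => ⋃ k, Hub k s) S₁ S₂ s)]
    refine ex_congr fun c₁ => ex_congr fun c₂ => ?_
    rw [sg2_eq hU]
  rw [← h1, ← ex_smul]
  refine ex_mono fun c₁ => ?_
  rw [← ex_smul]
  exact ex_mono fun c₂ => mul_le_mul_of_nonneg_right (hDC _ _) (hF _)

end hubs

end Vale.Agent.P148.R2.H838
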