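import Vale.Agent.P148.R2.H838.Law
import Vale.Agent.P148.R2.H172.N3b
import Vale.Agent.P148.R2.H532.Expl

/-!
# P148, row N4W: averages in a frozen world (AV2, AV3)

* `trunc B H` : the stopping set `H` truncated at the box `B`; it only looks at the colours in `B`.
* `near_fair` : near colours `s`, far colours `y` fixed, stopping set `R` with `R \ N ⊆ Z`: a function
  blind on `Z` of the composite (`R`, fresh off it) has its fair mean. `near_fair₂` : the same with
  the near colours themselves a composite.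
* `qe_near` : under the comb law, `f` depending on the far data and on the composite, blind on `Z`:
  the mean is at most `(c ^ (2 |t|))⁻¹ C`.
* `ex_tot_coll`, `tot_blind` : the energy of a world with collapsed frozen sets.
-/

open Finset
open scoped Classical

namespace Vale.Agent.P148.R2.H838

open Vale.Agent.P148.R2.H953 Vale.Agent.P148.R2.H172

set_option linter.unusedSectionVars false

variable {V : Type*} [Fintype V]

/-! ### Truncated stopping sets -/

/-- `H` if it stays in the box, the whole box otherwise. -/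
noncomputable def trunc (B : Set V) (H : (V → Bool) → Set V) (s : V → Bool) : Set V :=
  if H s ⊆ B then H s else B

theorem trunc_sub (B : Set V) (H : (V → Bool) → Set V) (s : V → Bool) : trunc B H s ⊆ B := by
  unfold trunc
  split_ifs with h
  · exact h
  · exact le_rfl

theorem trunc_eq {B : Set V} {H : (V → Bool) → Set V} {s : V → Bool} (h : H s ⊆ B) :
    trunc B H s = H s := if_pos h

theorem isStop_trunc {B : Set V} {H : (V → Bool) → Set V} (hH : IsStop H) :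
    IsStop (trunc B H) := by
  intro s t hst
  unfold trunc at hst ⊢
  by_cases h : H s ⊆ B
  · rw [if_pos h] at hst ⊢
    rw [hH s t hst, if_pos h]
  · rw [if_neg h] at hst ⊢
    rw [if_neg]
    intro h2
    apply h
    rw [hH t s (hst.symm.mono h2)]
    exact h2

theorem on_trunc {B : Set V} {H : (V → Bool) → Set V} (hH : IsStop H) : On B (trunc B H) :=
  fun s t hst => isStop_trunc hH s t (hst.mono (trunc_sub B H s))

/-! ### Near colours fair, far colours fixed -/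

/-- The near part of a stopping set. -/
theorem isStop_near {N : Set V} {R : (V → Bool) → Set V} (hR : IsStop R) (y : V → Bool) :
    IsStop fun s => R (glue N s y) ∩ N := by
  intro s t hst
  have h : R (glue N t y) = R (glue N s y) := by
    refine hR _ _ fun v hv => ?_
    by_cases hN : v ∈ N
    · rw [glue_mem hN, glue_mem hN]
      exact hst v ⟨hv, hN⟩
    · rw [glue_not_mem hN, glue_not_mem hN]
  dsimp only
  rw [h]

/-- **Fair near colours.** `f` does not look at `Z`, which contains the far part of `R`. -/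
theorem near_fair {N Z : Set V} {R : (V → Bool) → Set V} (hR : IsStop R) (y : V → Bool)
    (hZ : ∀ s, R (glue N s y) \ N ⊆ Z) {f : (V → Bool) → ℝ} (hf : On Zᶜ f) :
    (ex fun s => ex fun t => f (glue (R (glue N s y)) (glue N s y) t)) = ex f := by
  rw [← ex_resample (isStop_near hR y) f]
  refine ex_congr fun s => ex_congr fun t => ?_
  refine hf _ _ fun v hv => ?_
  by_cases h1 : v ∈ R (glue N s y)
  · have h2 : v ∈ N := by
      by_contra h2
      exact hv (hZ s ⟨h1, h2⟩)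
    have h3 : v ∈ R (glue N s y) ∩ N := ⟨h1, h2⟩
    rw [glue_mem h1, glue_mem h2, glue_mem h3]
  · have h3 : v ∉ R (glue N s y) ∩ N := fun h => h1 h.1
    rw [glue_not_mem h1, glue_not_mem h3]

/-- The near colours are themselves a composite. -/
theorem near_fair₂ {N Z : Set V} {H R : (V → Bool) → Set V} (hH : IsStop H) (hR : IsStop R)
    (y : V → Bool) (hZ : ∀ s, R (glue N s y) \ N ⊆ Z) {f : (V → Bool) → ℝ} (hf : On Zᶜ f) :
    (ex fun a => ex fun b => ex fun t =>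
      f (glue (R (glue N (s12 H a b) y)) (glue N (s12 H a b) y) t)) = ex f := by
  rw [← near_fair hR y hZ hf]
  exact s12_fair hH fun s => ex fun t => f (glue (R (glue N s y)) (glue N s y) t)

/-- Splitting two colourings into near and far colours. -/
theorem ex_split (N : Set V) (Φ : (V → Bool) → (V → Bool) → ℝ) :
    (ex fun c₁ => ex fun c₂ => Φ c₁ c₂) =
      ex fun b₁ => ex fun b₂ => ex fun a₁ => ex fun a₂ => Φ (glue N a₁ b₁) (glue N a₂ b₂) := by
  have h1 : ∀ F : (V → Bool) → ℝ, ex F = ex fun b => ex fun a => F (glue N a b) := by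
    intro F
    rw [ex_comm fun b a => F (glue N a b)]
    exact (ex_resample (isStop_const N) F).symm
  rw [h1 fun c₁ => ex fun c₂ => Φ c₁ c₂]
  refine ex_congr fun b₁ => ?_
  have h2 : ∀ a₁, (ex fun c₂ => Φ (glue N a₁ b₁) c₂) =
      ex fun b₂ => ex fun a₂ => Φ (glue N a₁ b₁) (glue N a₂ b₂) := fun a₁ => h1 _
  simp only [h2]
  exact ex_comm fun a₁ b₂ => ex fun a₂ => Φ (glue N a₁ b₁) (glue N a₂ b₂)

/-! ### The comb law -/

namespace Near

variable (g : GateLaw V)

/-- The far events: gates which do not touch `N`. -/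
def Far (t : Finset ℕ) (c₁ c₂ : V → Bool) : Prop := ∀ k ∈ range g.n \ t, g.He k c₁ ∧ g.Ce k c₂

/-- The composite colouring with the far hubs only. -/
noncomputable def Wf (t : Finset ℕ) (c₁ c₂ : V → Bool) : V → Bool := g.W (range g.n \ t) c₁ c₂

/-- The near hubs, truncated at their boxes. -/
noncomputable def HN (t : Finset ℕ) (c : V → Bool) : Set V := ⋃ k ∈ t, trunc (g.HB k) (g.Hub k) c

variable {g}

theorem far_of_A0 {t : Finset ℕ} {c₁ c₂ : V → Bool} (h : g.A0 c₁ c₂) : Far g t c₁ c₂ :=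
  fun k hk => h k (mem_range.1 (mem_sdiff.1 hk).1)

theorem isStop_HN {t : Finset ℕ} (ht : t ⊆ range g.n) : IsStop (HN g t) := by
  intro s u h
  unfold HN at h ⊢
  refine Set.iUnion₂_congr fun k hk => ?_
  exact isStop_trunc (g.stop k (mem_range.1 (ht hk))) s u
    (h.mono (Set.subset_biUnion_of_mem (u := fun k => trunc (g.HB k) (g.Hub k) s) hk))

theorem on_HN {N : Set V} {t : Finset ℕ} (ht : t ⊆ range g.n) (hin : ∀ k ∈ t, g.HB k ⊆ N) :
    On N (HN g t) := by
  intro s u h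
  unfold HN
  refine Set.iUnion₂_congr fun k hk => ?_
  exact on_trunc (g.stop k (mem_range.1 (ht hk))) s u (h.mono (hin k hk))

/-- On the event, the composite on `N` only sees the near hubs. -/
theorem w_near {N : Set V} {t : Finset ℕ} (hN : g.Touch N t) {c₁ c₂ : V → Bool}
    (h : g.A0 c₁ c₂) {v : V} (hv : v ∈ N) : g.w c₁ c₂ v = s12 (HN g t) c₁ c₂ v := by
  rw [g.w_eq_W hN h hv]
  have e : HN g t c₁ = ⋃ k ∈ t, g.Hub k c₁ := by
    unfold HN
    refine Set.iUnion₂_congr fun k hk => ?_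
    have hk' := mem_range.1 (hN.1 hk)
    exact trunc_eq (g.sub k hk' c₁ (h k hk').1)
  unfold GateLaw.W s12
  rw [e]

/-- On the event, the composite off `N` only sees the far hubs. -/
theorem w_far {N : Set V} {t : Finset ℕ} (ht : t ⊆ range g.n) (hin : ∀ k ∈ t, g.HB k ⊆ N)
    {c₁ c₂ : V → Bool} (h : g.A0 c₁ c₂) {v : V} (hv : v ∉ N) :
    g.w c₁ c₂ v = Wf g t c₁ c₂ v := by
  have key : v ∈ (⋃ k ∈ range g.n, g.Hub k c₁) ↔ v ∈ ⋃ k ∈ range g.n \ t, g.Hub k c₁ := by
    simp only [Set.mem_iUnion, exists_prop]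
    constructor
    · rintro ⟨k, hk, hvk⟩
      refine ⟨k, mem_sdiff.2 ⟨hk, fun hkt => ?_⟩, hvk⟩
      exact hv (hin k hkt (g.sub k (mem_range.1 hk) c₁ (h k (mem_range.1 hk)).1 hvk))
    · rintro ⟨k, hk, hvk⟩
      exact ⟨k, (mem_sdiff.1 hk).1, hvk⟩
  unfold GateLaw.w Wf GateLaw.W
  by_cases hm : v ∈ ⋃ k ∈ range g.n \ t, g.Hub k c₁
  · rw [glue_mem hm, glue_mem (key.2 hm)]
  · rw [glue_not_mem hm, glue_not_mem fun h => hm (key.1 h)]

/-- On the event, the composite is the near composite on `N` and the far composite off `N`. -/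
theorem w_eq {N : Set V} {t : Finset ℕ} (hN : g.Touch N t) (hin : ∀ k ∈ t, g.HB k ⊆ N)
    {c₁ c₂ : V → Bool} (h : g.A0 c₁ c₂) :
    g.w c₁ c₂ = glue N (s12 (HN g t) c₁ c₂) (Wf g t c₁ c₂) := by
  funext v
  by_cases hv : v ∈ N
  · rw [glue_mem hv, w_near hN h hv]
  · rw [glue_not_mem hv, w_far hN.1 hin h hv]

/-- The far events are far. -/
theorem far_glue {N : Set V} {t : Finset ℕ} (hN : g.Touch N t) (a₁ b₁ a₂ b₂ : V → Bool) :
    Far g t (glue N a₁ b₁) (glue N a₂ b₂) ↔ Far g t b₁ b₂ := by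
  have h : ∀ k ∈ range g.n \ t, (g.He k (glue N a₁ b₁) ∧ g.Ce k (glue N a₂ b₂) ↔
      g.He k b₁ ∧ g.Ce k b₂) := by
    intro k hk
    have hk' := mem_range.1 (mem_sdiff.1 hk).1
    obtain ⟨h1, h2⟩ := hN.2 k hk' (mem_sdiff.1 hk).2
    rw [g.heOn k hk' b₁ (glue N a₁ b₁) fun v hv => glue_not_mem (Set.disjoint_left.1 h1 hv),
      g.ceOn k hk' b₂ (glue N a₂ b₂) fun v hv => glue_not_mem (Set.disjoint_left.1 h2 hv)]
  exact forall₂_congr h

/-- The far composite is far. -/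
theorem wf_glue {N : Set V} {t : Finset ℕ} (hN : g.Touch N t) {a₁ b₁ a₂ b₂ : V → Bool}
    (h : Far g t b₁ b₂) {v : V} (hv : v ∉ N) :
    Wf g t (glue N a₁ b₁) (glue N a₂ b₂) v = Wf g t b₁ b₂ v := by
  have h1 : ∀ k ∈ range g.n \ t, g.Hub k (glue N a₁ b₁) = g.Hub k b₁ := by
    intro k hk
    have hk' := mem_range.1 (mem_sdiff.1 hk).1
    obtain ⟨h1, h2⟩ := hN.2 k hk' (mem_sdiff.1 hk).2
    refine g.stop k hk' b₁ (glue N a₁ b₁) fun v hv => ?_
    exact glue_not_mem (Set.disjoint_left.1 h1 (g.sub k hk' b₁ (h k hk).1 hv))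
  have h2 : (⋃ k ∈ range g.n \ t, g.Hub k (glue N a₁ b₁)) =
      ⋃ k ∈ range g.n \ t, g.Hub k b₁ := Set.iUnion₂_congr h1
  unfold Wf GateLaw.W
  rw [h2]
  by_cases hm : v ∈ ⋃ k ∈ range g.n \ t, g.Hub k b₁
  · rw [glue_mem hm, glue_mem hm, glue_not_mem hv]
  · rw [glue_not_mem hm, glue_not_mem hm, glue_not_mem hv]

/-- The near composite is near. -/
theorem near_glue {N : Set V} {t : Finset ℕ} (ht : t ⊆ range g.n) (hin : ∀ k ∈ t, g.HB k ⊆ N)
    (a₁ b₁ a₂ b₂ : V → Bool) {v : V} (hv : v ∈ N) :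
    s12 (HN g t) (glue N a₁ b₁) (glue N a₂ b₂) v = s12 (HN g t) a₁ a₂ v := by
  have h : HN g t (glue N a₁ b₁) = HN g t a₁ := on_HN ht hin a₁ _ (agree_glue N a₁ b₁)
  unfold s12
  rw [h]
  by_cases hm : v ∈ HN g t a₁
  · rw [glue_mem hm, glue_mem hm, glue_mem hv]
  · rw [glue_not_mem hm, glue_not_mem hm, glue_mem hv]

/-- The probability of the far events. -/
theorem pr_far {t : Finset ℕ} : (ex fun c₁ => ex fun c₂ => if Far g t c₁ c₂ then (1 : ℝ) else 0) =
    (∏ k ∈ range g.n \ t, H953.pr (g.He k)) * ∏ k ∈ range g.n \ t, H953.pr (g.Ce k) := by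
  have h := ex_pair fun c₁ c₂ : V → Bool => if Far g t c₁ c₂ then (1 : ℝ) else 0
  unfold ex2 at h
  rw [← h, ← g.pr_all_eq (sdiff_subset : range g.n \ t ⊆ range g.n)]
  refine ex_congr fun σ => ?_
  have h1 : Far g t (σ ∘ Sum.inl) (σ ∘ Sum.inr) ↔
      All ((range g.n \ t).disjSum (range g.n \ t)) g.ev σ := (g.all_iff _ σ).symm
  by_cases h2 : Far g t (σ ∘ Sum.inl) (σ ∘ Sum.inr)
  · rw [if_pos h2, if_pos (h1.1 h2)]
  · rw [if_neg h2, if_neg fun h => h2 (h1.2 h)]

variable {c : ℝ} (hc : 0 < c) (hH : ∀ k < g.n, c ≤ H953.pr (g.He k)) (hC : ∀ k < g.n, c ≤ H953.pr (g.Ce k))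

include hc hH hC

/-- **Quenched means in a frozen world.** `N` contains the near hub boxes. `f` depends on the far
colours of `c₁, c₂` and on one colouring, which it does not see on the far set `Z`. -/
theorem qe_near {N : Set V} {t : Finset ℕ} (hN : g.Touch N t) (hin : ∀ k ∈ t, g.HB k ⊆ N)
    {R : (V → Bool) → Set V} (hR : IsStop R) {Z : (V → Bool) → (V → Bool) → Set V}
    {f : (V → Bool) → (V → Bool) → (V → Bool) → ℝ} (h0 : ∀ c₁ c₂ s, 0 ≤ f c₁ c₂ s)
    (hff : ∀ a₁ b₁ a₂ b₂, f (glue N a₁ b₁) (glue N a₂ b₂) = f b₁ b₂)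
    (hZ : ∀ c₁ c₂, Far g t c₁ c₂ → ∀ s, R (glue N s (Wf g t c₁ c₂)) \ N ⊆ Z c₁ c₂)
    (hfZ : ∀ c₁ c₂, Far g t c₁ c₂ → On (Z c₁ c₂)ᶜ (f c₁ c₂)) {C : ℝ} (hC0 : 0 ≤ C)
    (hfC : ∀ c₁ c₂, Far g t c₁ c₂ → ex (f c₁ c₂) ≤ C) :
    g.qe (fun c₁ c₂ => ex fun c₃ => f c₁ c₂ (glue (R (g.w c₁ c₂)) (g.w c₁ c₂) c₃)) ≤
      (c ^ (2 * t.card))⁻¹ * C := by
  set P : ℝ := (∏ k ∈ range g.n, H953.pr (g.He k)) * ∏ k ∈ range g.n, H953.pr (g.Ce k) with hP
  have hHp : ∀ k ∈ range g.n, 0 < H953.pr (g.He k) := fun k hk =>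
    lt_of_lt_of_le hc (hH k (mem_range.1 hk))
  have hCp : ∀ k ∈ range g.n, 0 < H953.pr (g.Ce k) := fun k hk =>
    lt_of_lt_of_le hc (hC k (mem_range.1 hk))
  have hPpos : 0 < P := mul_pos (prod_pos hHp) (prod_pos hCp)
  -- drop the near events
  have e1 : g.qe (fun c₁ c₂ => ex fun c₃ => f c₁ c₂ (glue (R (g.w c₁ c₂)) (g.w c₁ c₂) c₃)) ≤
      P⁻¹ * ex fun c₁ => ex fun c₂ => if Far g t c₁ c₂ then
        ex fun c₃ => f c₁ c₂ (glue (R (glue N (s12 (HN g t) c₁ c₂) (Wf g t c₁ c₂)))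
          (glue N (s12 (HN g t) c₁ c₂) (Wf g t c₁ c₂)) c₃) else 0 := by
    rw [g.qe_eq_L]
    unfold ex2
    rw [← ex_smul]
    refine ex_mono fun c₁ => ?_
    rw [← ex_smul]
    refine ex_mono fun c₂ => ?_
    unfold GateLaw.L
    dsimp only
    by_cases hA : g.A0 c₁ c₂
    · rw [if_pos hA, if_pos (far_of_A0 hA), ← hP, w_eq hN hin hA]
    · rw [if_neg hA, zero_mul]
      refine mul_nonneg (inv_nonneg.2 hPpos.le) ?_
      split_ifs
      · exact ex_nonneg fun _ => h0 _ _ _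
      · exact le_rfl
  -- near and far colours
  have e2 : (ex fun c₁ => ex fun c₂ => if Far g t c₁ c₂ then
        ex fun c₃ => f c₁ c₂ (glue (R (glue N (s12 (HN g t) c₁ c₂) (Wf g t c₁ c₂)))
          (glue N (s12 (HN g t) c₁ c₂) (Wf g t c₁ c₂)) c₃) else 0) ≤
      ex fun b₁ => ex fun b₂ => C * if Far g t b₁ b₂ then (1 : ℝ) else 0 := by
    rw [ex_split N]
    refine ex_mono fun b₁ => ex_mono fun b₂ => ?_
    by_cases hF : Far g t b₁ b₂
    · rw [if_pos hF, mul_one]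
      refine le_trans (le_of_eq ?_) (hfC b₁ b₂ hF)
      rw [← near_fair₂ (isStop_HN hN.1) hR (Wf g t b₁ b₂) (hZ b₁ b₂ hF) (hfZ b₁ b₂ hF)]
      refine ex_congr fun a₁ => ex_congr fun a₂ => ?_
      rw [if_pos ((far_glue hN a₁ b₁ a₂ b₂).2 hF), hff]
      have e3 : glue N (s12 (HN g t) (glue N a₁ b₁) (glue N a₂ b₂))
          (Wf g t (glue N a₁ b₁) (glue N a₂ b₂)) =
          glue N (s12 (HN g t) a₁ a₂) (Wf g t b₁ b₂) := by
        funext v
        by_cases hv : v ∈ N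
        · rw [glue_mem hv, glue_mem hv, near_glue hN.1 hin a₁ b₁ a₂ b₂ hv]
        · rw [glue_not_mem hv, glue_not_mem hv, wf_glue hN hF hv]
      rw [e3]
    · rw [if_neg hF, mul_zero]
      refine le_of_eq ?_
      have e4 : ∀ a₁ a₂, ¬ Far g t (glue N a₁ b₁) (glue N a₂ b₂) := fun a₁ a₂ h =>
        hF ((far_glue hN a₁ b₁ a₂ b₂).1 h)
      simp only [if_neg (e4 _ _)]
      rw [ex_const, ex_const]
  have e5 : (ex fun b₁ => ex fun b₂ => C * if Far g t b₁ b₂ then (1 : ℝ) else 0) =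
      C * ((∏ k ∈ range g.n \ t, H953.pr (g.He k)) * ∏ k ∈ range g.n \ t, H953.pr (g.Ce k)) := by
    rw [← pr_far, ← ex_smul]
    exact ex_congr fun b₁ => ex_smul _ _
  -- the near probabilities
  have hst : range g.n \ t ∪ t = range g.n := sdiff_union_of_subset hN.1
  have hdj : Disjoint (range g.n \ t) t := sdiff_disjoint
  have e6 : P = ((∏ k ∈ range g.n \ t, H953.pr (g.He k)) * ∏ k ∈ range g.n \ t, H953.pr (g.Ce k)) *
      ((∏ k ∈ t, H953.pr (g.He k)) * ∏ k ∈ t, H953.pr (g.Ce k)) := by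
    rw [hP]
    conv_lhs => rw [← hst]
    rw [prod_union hdj, prod_union hdj]
    ring
  have e7 : c ^ (2 * t.card) ≤ (∏ k ∈ t, H953.pr (g.He k)) * ∏ k ∈ t, H953.pr (g.Ce k) := by
    rw [← g.pr_all_eq hN.1]
    exact g.pow_le_pr hc hH hC hN.1
  set A : ℝ := (∏ k ∈ range g.n \ t, H953.pr (g.He k)) * ∏ k ∈ range g.n \ t, H953.pr (g.Ce k) with hA
  set B : ℝ := (∏ k ∈ t, H953.pr (g.He k)) * ∏ k ∈ t, H953.pr (g.Ce k) with hB
  have hBpos : 0 < B := lt_of_lt_of_le (by positivity) e7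
  have hApos : 0 < A := by
    rcases (mul_pos_iff_of_pos_right hBpos).1 (e6 ▸ hPpos) with h
    exact h
  calc _ ≤ P⁻¹ * (C * A) := e1.trans (mul_le_mul_of_nonneg_left (e2.trans (le_of_eq e5))
        (inv_nonneg.2 hPpos.le))
    _ = B⁻¹ * C := by
        rw [e6]
        field_simp
    _ ≤ (c ^ (2 * t.card))⁻¹ * C :=
        mul_le_mul_of_nonneg_right (inv_anti₀ (by positivity) e7) hC0

end Near

/-! ### Energy of a world with collapsed frozen sets -/

section energy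

open Vale.Agent.P148.R2.H258 Vale.Agent.P148.R2.H203 Vale.Agent.P148.R2.H532

variable {D ι : Type*} [Fintype ι] [Fintype D] {T : Tri V D} {S : ι → Set V} {r : ι → V}

theorem mix_eq_glue (A : Set V) (s t : V → Bool) : mix A s t = glue A s t := by
  funext v
  unfold mix
  by_cases h : v ∈ A
  · rw [if_pos h, glue_mem h]
  · rw [if_neg h, glue_not_mem h]

/-- The mean energy of the collapsed world, with decreed colours `σ₀` on the collapsed sets. -/
theorem ex_tot_coll (h : Coll T S r) (hP : T.Planar) {τ : ℂ} (hτ : τ ^ 2 + τ + 1 = 0)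
    {Θ : D → ℂ} (hΘ : ∀ d, Θ (T.nxt d) = τ ^ 2 * Θ d)
    (hg : ∀ d, ¬ (tmap T (H532.col S r) h.fib).Good d → Θ d = 0) (σ₀ : V → Bool) :
    (ex fun s => tot (tmap T (H532.col S r) h.fib) (mix (⋃ i, S i) σ₀ s) Θ) ≤
      2 ^ Fintype.card ι / 4 * ∑ d, ‖Θ d‖ ^ 2 := by
  have h1 := h.cond_tot hP hτ hΘ hg σ₀
  unfold ex
  rw [div_le_iff₀ card_pos]
  refine h1.trans (le_of_eq ?_)
  ring

/-- It does not look at the colours on the collapsed sets. -/
theorem tot_blind (h : Coll T S r) (Θ : D → ℂ) (σ₀ : V → Bool) :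
    On (⋃ i, S i)ᶜ fun s => tot (tmap T (H532.col S r) h.fib) (mix (⋃ i, S i) σ₀ s) Θ := by
  intro s t hst
  have : mix (⋃ i, S i) σ₀ t = mix (⋃ i, S i) σ₀ s := by
    rw [mix_eq_glue, mix_eq_glue]
    exact glue_congr Agree.rfl hst.symm
  dsimp only
  rw [this]

end energy

end Vale.Agent.P148.R2.H838
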