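import Vale.Agent.P148.R2.H838.NearLaw

/-!
# P148, row N4W: averages in a frozen world, tower form (stopped strand)

* `tower_le` : `A ⊆ B` stopping sets, `Φ s z` depends on `s` through the colours on `A s` and does not
  look at `z` on `A s`: the mean of `Φ s (glue (B s) s ρ)` is at most `C` if every `ex (Φ s) ≤ C`.
* `Near.qe_le_far` : given the far data, the near colours of the composite are fair up to the factor
  `c ^ (2 |t|)`.
* `Near.qe_tower` : both together, for a stopping set `S` (explored strand) and a larger set `R`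
  (everything seen) with `R \ S ⊆ N`, both depending on the far data.
* `cotot` : energy of a world with collapsed sets, as a total function of the sets.
* `Near.qe_cotot` : the energy bound used for the windows.
-/

open Finset
open scoped Classical

namespace Vale.Agent.P148.R2.H838

open Vale.Agent.P148.R2.H953 Vale.Agent.P148.R2.H172

set_option linter.unusedSectionVars false

variable {V : Type*} [Fintype V]

/-! ### Tower -/

theorem ex_le_const {f : (V → Bool) → ℝ} {C : ℝ} (h : ∀ s, f s ≤ C) : ex f ≤ C := by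
  rw [← ex_const (V := V) C]
  exact ex_mono h

/-- The first argument only matters through the colours on `A`, so it may be replaced by the
composite colouring. -/
theorem tower_eq {A B : (V → Bool) → Set V} (hB : IsStop B)
    (hAB : ∀ s, A s ⊆ B s) {Φ : (V → Bool) → (V → Bool) → ℝ}
    (hΦ : ∀ s s', Agree (A s) s s' → Φ s' = Φ s) :
    (ex fun s => ex fun t => Φ s (glue (B s) s t)) = ex fun z => Φ z z := by
  rw [← ex_resample hB fun z => Φ z z]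
  refine ex_congr fun s => ex_congr fun t => ?_
  rw [hΦ s (glue (B s) s t) ((agree_glue (B s) s t).mono (hAB s))]

theorem tower_le {A B : (V → Bool) → Set V} (hA : IsStop A) (hB : IsStop B)
    (hAB : ∀ s, A s ⊆ B s) {Φ : (V → Bool) → (V → Bool) → ℝ}
    (hΦ : ∀ s s', Agree (A s) s s' → Φ s' = Φ s) (hbl : ∀ s, On (A s)ᶜ (Φ s)) {C : ℝ}
    (hC : ∀ s, ex (Φ s) ≤ C) :
    (ex fun s => ex fun t => Φ s (glue (B s) s t)) ≤ C := by
  rw [tower_eq hB hAB hΦ, ← tower_eq hA (fun s => le_rfl) hΦ]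
  refine ex_le_const fun s => le_trans (le_of_eq (ex_congr fun t => ?_)) (hC s)
  exact hbl s _ _ (agree_glue' (A s) s t)

/-- The same for a stopping set and a function of the composite. -/
theorem ex_stop_le {A : (V → Bool) → Set V} (hA : IsStop A)
    {Φ : (V → Bool) → (V → Bool) → ℝ}
    (hΦ : ∀ s s', Agree (A s) s s' → Φ s' = Φ s) (hbl : ∀ s, On (A s)ᶜ (Φ s)) {C : ℝ}
    (hC : ∀ s, ex (Φ s) ≤ C) : (ex fun s => Φ s s) ≤ C := by
  rw [← tower_eq hA (fun s => le_rfl) hΦ]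
  exact tower_le hA hA (fun s => le_rfl) hΦ hbl hC

/-- **Near colours fair, far colours fixed, stopped exploration.** `S ⊆ R` are stopping sets, what is
seen off `S` is near; `Φ x z` depends on `x` through the colours on `S x` and does not look at `z` on
`S x`. -/
theorem near_tower {N : Set V} {S R : (V → Bool) → Set V} (hS : IsStop S) (hR : IsStop R)
    (y : V → Bool) (hSR : ∀ s, S (glue N s y) ⊆ R (glue N s y))
    (hRN : ∀ s, R (glue N s y) \ S (glue N s y) ⊆ N) {Φ : (V → Bool) → (V → Bool) → ℝ}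
    (hΦ : ∀ s s', Agree (S (glue N s y)) (glue N s y) (glue N s' y) →
      Φ (glue N s' y) = Φ (glue N s y))
    (hbl : ∀ s, On (S (glue N s y))ᶜ (Φ (glue N s y))) {C : ℝ}
    (hC : ∀ s, ex (Φ (glue N s y)) ≤ C) :
    (ex fun s => ex fun t => Φ (glue N s y) (glue (R (glue N s y)) (glue N s y) t)) ≤ C := by
  have key : ∀ s t : V → Bool, Φ (glue N s y) (glue (R (glue N s y)) (glue N s y) t) =
      Φ (glue N s y) (glue (R (glue N s y) ∩ N) s t) := by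
    intro s t
    refine hbl s _ _ fun v hv => ?_
    by_cases h1 : v ∈ R (glue N s y)
    · have h2 : v ∈ N := hRN s ⟨h1, hv⟩
      have h3 : v ∈ R (glue N s y) ∩ N := ⟨h1, h2⟩
      rw [glue_mem h1, glue_mem h2, glue_mem h3]
    · have h3 : v ∉ R (glue N s y) ∩ N := fun h => h1 h.1
      rw [glue_not_mem h1, glue_not_mem h3]
  simp only [key]
  refine tower_le (A := fun s => S (glue N s y) ∩ N) (B := fun s => R (glue N s y) ∩ N)
    (Φ := fun s => Φ (glue N s y)) (isStop_near hS y) (isStop_near hR y)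
    (fun s => Set.inter_subset_inter_left N (hSR s)) (fun s s' h => ?_) (fun s => ?_) hC
  · refine hΦ s s' fun v hv => ?_
    by_cases hN : v ∈ N
    · rw [glue_mem hN, glue_mem hN]
      exact h v ⟨hv, hN⟩
    · rw [glue_not_mem hN, glue_not_mem hN]
  · intro a b hab
    refine hbl s a b fun v hv => ?_
    exact hab v fun h => hv h.1

/-- Monotone form of `ex_resample` for the near composite. -/
theorem near_s12 {H : (V → Bool) → Set V} (hH : IsStop H) (F : (V → Bool) → ℝ) :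
    (ex fun a => ex fun b => F (s12 H a b)) = ex F := s12_fair hH F

namespace Near

variable {g : GateLaw V} {c : ℝ} (hc : 0 < c) (hH : ∀ k < g.n, c ≤ H953.pr (g.He k))
  (hC : ∀ k < g.n, c ≤ H953.pr (g.Ce k))

include hc hH hC

/-- **Far data fixed.** Under the comb law the near colours of the composite are fair up to the
factor `c ^ (2 |t|)`. -/
theorem qe_le_far {N : Set V} {t : Finset ℕ} (hN : g.Touch N t) (hin : ∀ k ∈ t, g.HB k ⊆ N)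
    {G : (V → Bool) → (V → Bool) → (V → Bool) → ℝ} (h0 : ∀ c₁ c₂ s, 0 ≤ G c₁ c₂ s)
    (hG : ∀ a₁ b₁ a₂ b₂, G (glue N a₁ b₁) (glue N a₂ b₂) = G b₁ b₂) {C : ℝ} (hC0 : 0 ≤ C)
    (hGC : ∀ c₁ c₂, Far g t c₁ c₂ → (ex fun s => G c₁ c₂ (glue N s (Wf g t c₁ c₂))) ≤ C) :
    g.qe (fun c₁ c₂ => G c₁ c₂ (g.w c₁ c₂)) ≤ (c ^ (2 * t.card))⁻¹ * C := by
  set P : ℝ := (∏ k ∈ range g.n, H953.pr (g.He k)) * ∏ k ∈ range g.n, H953.pr (g.Ce k) with hP
  have hHp : ∀ k ∈ range g.n, 0 < H953.pr (g.He k) := fun k hk =>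
    lt_of_lt_of_le hc (hH k (mem_range.1 hk))
  have hCp : ∀ k ∈ range g.n, 0 < H953.pr (g.Ce k) := fun k hk =>
    lt_of_lt_of_le hc (hC k (mem_range.1 hk))
  have hPpos : 0 < P := mul_pos (prod_pos hHp) (prod_pos hCp)
  have e1 : g.qe (fun c₁ c₂ => G c₁ c₂ (g.w c₁ c₂)) ≤
      P⁻¹ * ex fun c₁ => ex fun c₂ => if Far g t c₁ c₂ then
        G c₁ c₂ (glue N (s12 (HN g t) c₁ c₂) (Wf g t c₁ c₂)) else 0 := by
    rw [g.qe_eq_L]
    unfold ex2
    rw [← ex_smul]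
    refine ex_mono fun c₁ => ?_
    rw [← ex_smul]
    refine ex_mono fun c₂ => ?_
    unfold GateLaw.L
    dsimp only
    by_cases hA : g.A0 c₁ c₂
    · rw [if_pos hA, if_pos (far_of_A0 hA), ← hP, w_eq hN hin hA]
    · rw [if_neg hA, zero_mul]
      refine mul_nonneg (inv_nonneg.2 hPpos.le) ?_
      split_ifs
      · exact h0 _ _ _
      · exact le_rfl
  have e2 : (ex fun c₁ => ex fun c₂ => if Far g t c₁ c₂ then
        G c₁ c₂ (glue N (s12 (HN g t) c₁ c₂) (Wf g t c₁ c₂)) else 0) ≤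
      ex fun b₁ => ex fun b₂ => C * if Far g t b₁ b₂ then (1 : ℝ) else 0 := by
    rw [ex_split N]
    refine ex_mono fun b₁ => ex_mono fun b₂ => ?_
    by_cases hF : Far g t b₁ b₂
    · rw [if_pos hF, mul_one]
      refine le_trans (le_of_eq ?_) (hGC b₁ b₂ hF)
      rw [← s12_fair (isStop_HN hN.1) fun s => G b₁ b₂ (glue N s (Wf g t b₁ b₂))]
      refine ex_congr fun a₁ => ex_congr fun a₂ => ?_
      rw [if_pos ((far_glue hN a₁ b₁ a₂ b₂).2 hF), hG]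
      have e3 : glue N (s12 (HN g t) (glue N a₁ b₁) (glue N a₂ b₂))
          (Wf g t (glue N a₁ b₁) (glue N a₂ b₂)) =
          glue N (s12 (HN g t) a₁ a₂) (Wf g t b₁ b₂) := by
        funext v
        by_cases hv : v ∈ N
        · rw [glue_mem hv, glue_mem hv, near_glue hN.1 hin a₁ b₁ a₂ b₂ hv]
        · rw [glue_not_mem hv, glue_not_mem hv, wf_glue hN hF hv]
      rw [e3]
    · rw [if_neg hF, mul_zero]
      refine le_of_eq ?_
      have e4 : ∀ a₁ a₂, ¬ Far g t (glue N a₁ b₁) (glue N a₂ b₂) := fun a₁ a₂ h =>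
        hF ((far_glue hN a₁ b₁ a₂ b₂).1 h)
      simp only [if_neg (e4 _ _)]
      rw [ex_const, ex_const]
  have e5 : (ex fun b₁ => ex fun b₂ => C * if Far g t b₁ b₂ then (1 : ℝ) else 0) =
      C * ((∏ k ∈ range g.n \ t, H953.pr (g.He k)) *
        ∏ k ∈ range g.n \ t, H953.pr (g.Ce k)) := by
    rw [← pr_far, ← ex_smul]
    exact ex_congr fun b₁ => ex_smul _ _
  have hst : range g.n \ t ∪ t = range g.n := sdiff_union_of_subset hN.1
  have hdj : Disjoint (range g.n \ t) t := sdiff_disjoint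
  have e6 : P = ((∏ k ∈ range g.n \ t, H953.pr (g.He k)) *
      ∏ k ∈ range g.n \ t, H953.pr (g.Ce k)) *
      ((∏ k ∈ t, H953.pr (g.He k)) * ∏ k ∈ t, H953.pr (g.Ce k)) := by
    rw [hP]
    conv_lhs => rw [← hst]
    rw [prod_union hdj, prod_union hdj]
    ring
  have e7 : c ^ (2 * t.card) ≤ (∏ k ∈ t, H953.pr (g.He k)) * ∏ k ∈ t, H953.pr (g.Ce k) := by
    rw [← g.pr_all_eq hN.1]
    exact g.pow_le_pr hc hH hC hN.1
  set A : ℝ := (∏ k ∈ range g.n \ t, H953.pr (g.He k)) *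
    ∏ k ∈ range g.n \ t, H953.pr (g.Ce k) with hA
  set B : ℝ := (∏ k ∈ t, H953.pr (g.He k)) * ∏ k ∈ t, H953.pr (g.Ce k) with hB
  have hBpos : 0 < B := lt_of_lt_of_le (by positivity) e7
  have hApos : 0 < A := (mul_pos_iff_of_pos_right hBpos).1 (e6 ▸ hPpos)
  calc _ ≤ P⁻¹ * (C * A) := e1.trans (mul_le_mul_of_nonneg_left (e2.trans (le_of_eq e5))
        (inv_nonneg.2 hPpos.le))
    _ = B⁻¹ * C := by
        rw [e6]
        field_simp
    _ ≤ (c ^ (2 * t.card))⁻¹ * C :=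
        mul_le_mul_of_nonneg_right (inv_anti₀ (by positivity) e7) hC0

/-- **Form (NL)**: a function of the composite and of the fresh colouring. -/
theorem qe_nl {N : Set V} {t : Finset ℕ} (hN : g.Touch N t) (hin : ∀ k ∈ t, g.HB k ⊆ N)
    {Ψ : (V → Bool) → (V → Bool) → ℝ} (h0 : ∀ x z, 0 ≤ Ψ x z) {C : ℝ} (hC0 : 0 ≤ C)
    (hΨ : ∀ y, (ex fun s => ex fun z => Ψ (glue N s y) z) ≤ C) :
    g.qe (fun c₁ c₂ => ex fun c₃ => Ψ (g.w c₁ c₂) c₃) ≤ (c ^ (2 * t.card))⁻¹ * C :=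
  qe_le_far hc hH hC hN hin (G := fun _ _ x => ex fun z => Ψ x z)
    (fun _ _ x => ex_nonneg fun z => h0 x z) (fun _ _ _ _ => rfl) hC0
    fun c₁ c₂ _ => hΨ (Wf g t c₁ c₂)

/-- **Tower form.** `S` (explored strand) and `R` (everything seen) depend on the far data; what is
seen off `S` is near. -/
theorem qe_tower {N : Set V} {t : Finset ℕ} (hN : g.Touch N t) (hin : ∀ k ∈ t, g.HB k ⊆ N)
    {S R : (V → Bool) → (V → Bool) → (V → Bool) → Set V}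
    {Φ : (V → Bool) → (V → Bool) → (V → Bool) → (V → Bool) → ℝ}
    (h0 : ∀ c₁ c₂ x z, 0 ≤ Φ c₁ c₂ x z)
    (hRf : ∀ a₁ b₁ a₂ b₂, R (glue N a₁ b₁) (glue N a₂ b₂) = R b₁ b₂)
    (hΦf : ∀ a₁ b₁ a₂ b₂, Φ (glue N a₁ b₁) (glue N a₂ b₂) = Φ b₁ b₂)
    (hS : ∀ c₁ c₂, Far g t c₁ c₂ → IsStop (S c₁ c₂))
    (hR : ∀ c₁ c₂, Far g t c₁ c₂ → IsStop (R c₁ c₂))
    (hSR : ∀ c₁ c₂, Far g t c₁ c₂ → ∀ x, S c₁ c₂ x ⊆ R c₁ c₂ x)
    (hRN : ∀ c₁ c₂, Far g t c₁ c₂ → ∀ s, R c₁ c₂ (glue N s (Wf g t c₁ c₂)) \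
      S c₁ c₂ (glue N s (Wf g t c₁ c₂)) ⊆ N)
    (hΦ : ∀ c₁ c₂, Far g t c₁ c₂ → ∀ x x', Agree (S c₁ c₂ x) x x' → Φ c₁ c₂ x' = Φ c₁ c₂ x)
    (hbl : ∀ c₁ c₂, Far g t c₁ c₂ → ∀ x, On (S c₁ c₂ x)ᶜ (Φ c₁ c₂ x)) {C : ℝ} (hC0 : 0 ≤ C)
    (hΦC : ∀ c₁ c₂, Far g t c₁ c₂ → ∀ x, ex (Φ c₁ c₂ x) ≤ C) :
    g.qe (fun c₁ c₂ => ex fun c₃ =>
      Φ c₁ c₂ (g.w c₁ c₂) (glue (R c₁ c₂ (g.w c₁ c₂)) (g.w c₁ c₂) c₃)) ≤
      (c ^ (2 * t.card))⁻¹ * C := by
  refine qe_le_far hc hH hC hN hin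
    (G := fun c₁ c₂ x => ex fun c₃ => Φ c₁ c₂ x (glue (R c₁ c₂ x) x c₃))
    (fun c₁ c₂ x => ex_nonneg fun c₃ => h0 _ _ _ _) (fun a₁ b₁ a₂ b₂ => ?_) hC0
    fun c₁ c₂ hF => ?_
  · rw [hRf, hΦf]
  · exact near_tower (hS c₁ c₂ hF) (hR c₁ c₂ hF) (Wf g t c₁ c₂) (fun s => hSR c₁ c₂ hF _)
      (hRN c₁ c₂ hF) (fun s s' h => hΦ c₁ c₂ hF _ _ h) (fun s => hbl c₁ c₂ hF _)
      fun s => hΦC c₁ c₂ hF _

end Near

/-! ### Energy of a world with collapsed sets, as a total function -/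

section energy

open Vale.Agent.P148.R2.H258 Vale.Agent.P148.R2.H203 Vale.Agent.P148.R2.H532

variable {D ι : Type*} [Fintype ι] [Fintype D] {T : Tri V D} {S : ι → Set V} {r : ι → V}

/-- The energy of the world with the sets `S i` collapsed to `r i`, with decreed colours `σ₀` there
(`0` if the sets cannot be collapsed). -/
noncomputable def cotot (T : Tri V D) (S : ι → Set V) (r : ι → V) (σ₀ : V → Bool) (Θ : D → ℂ)
    (z : V → Bool) : ℝ :=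
  if h : Coll T S r then tot (tmap T (H532.col S r) h.fib) (mix (⋃ i, S i) σ₀ z) Θ else 0

theorem cotot_eq (h : Coll T S r) (σ₀ : V → Bool) (Θ : D → ℂ) (z : V → Bool) :
    cotot T S r σ₀ Θ z = tot (tmap T (H532.col S r) h.fib) (mix (⋃ i, S i) σ₀ z) Θ := dif_pos h

theorem cotot_nonneg (σ₀ : V → Bool) (Θ : D → ℂ) (z : V → Bool) : 0 ≤ cotot T S r σ₀ Θ z := by
  unfold cotot
  split_ifs with h
  · exact tot_nonneg _ _ _
  · exact le_rfl

theorem cotot_blind (σ₀ : V → Bool) (Θ : D → ℂ) :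
    On (⋃ i, S i)ᶜ (cotot T S r σ₀ Θ) := by
  by_cases h : Coll T S r
  · have h1 := tot_blind h Θ σ₀
    intro s t hst
    rw [cotot_eq h, cotot_eq h]
    exact h1 s t hst
  · intro s t _
    unfold cotot
    rw [dif_neg h, dif_neg h]

theorem ex_cotot_le (hP : T.Planar) {τ : ℂ} (hτ : τ ^ 2 + τ + 1 = 0) {Θ : D → ℂ}
    (hΘ : ∀ d, Θ (T.nxt d) = τ ^ 2 * Θ d)
    (hg : ∀ h : Coll T S r, ∀ d, ¬ (tmap T (H532.col S r) h.fib).Good d → Θ d = 0)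
    (σ₀ : V → Bool) : ex (cotot T S r σ₀ Θ) ≤ 2 ^ Fintype.card ι / 4 * ∑ d, ‖Θ d‖ ^ 2 := by
  by_cases h : Coll T S r
  · have h1 := ex_tot_coll h hP hτ hΘ (hg h) σ₀
    refine le_trans (le_of_eq (ex_congr fun z => ?_)) h1
    exact cotot_eq h _ _ _
  · refine le_trans (le_of_eq ?_) (mul_nonneg (div_nonneg (by positivity) (by norm_num))
      (sum_nonneg fun d _ => sq_nonneg _))
    rw [← ex_const (V := V) 0]
    exact ex_congr fun z => dif_neg h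

/-- **The energy of the frozen worlds of the windows.** All data depend on the far colours of
`c₁, c₂` and on the composite through the explored set `S = ⋃ F i`. -/
theorem Near.qe_cotot {g : GateLaw V} {c : ℝ} (hc : 0 < c)
    (hH : ∀ k < g.n, c ≤ H953.pr (g.He k)) (hC : ∀ k < g.n, c ≤ H953.pr (g.Ce k))
    {N : Set V} {t : Finset ℕ} (hN : g.Touch N t) (hin : ∀ k ∈ t, g.HB k ⊆ N)
    (hP : T.Planar) {τ : ℂ} (hτ : τ ^ 2 + τ + 1 = 0)
    {R : (V → Bool) → (V → Bool) → (V → Bool) → Set V}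
    {F : (V → Bool) → (V → Bool) → (V → Bool) → ι → Set V}
    {ro : (V → Bool) → (V → Bool) → (V → Bool) → ι → V}
    {σ₀ : (V → Bool) → (V → Bool) → (V → Bool) → V → Bool}
    {Θ : (V → Bool) → (V → Bool) → (V → Bool) → D → ℂ}
    (far : ∀ a₁ b₁ a₂ b₂, R (glue N a₁ b₁) (glue N a₂ b₂) = R b₁ b₂ ∧
      F (glue N a₁ b₁) (glue N a₂ b₂) = F b₁ b₂ ∧ ro (glue N a₁ b₁) (glue N a₂ b₂) = ro b₁ b₂ ∧
      σ₀ (glue N a₁ b₁) (glue N a₂ b₂) = σ₀ b₁ b₂ ∧ Θ (glue N a₁ b₁) (glue N a₂ b₂) = Θ b₁ b₂)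
    (hR : ∀ c₁ c₂, Near.Far g t c₁ c₂ → H953.IsStop (R c₁ c₂))
    (hFR : ∀ c₁ c₂, Near.Far g t c₁ c₂ → ∀ x, (⋃ i, F c₁ c₂ x i) ⊆ R c₁ c₂ x)
    (hRN : ∀ c₁ c₂, Near.Far g t c₁ c₂ → ∀ s, R c₁ c₂ (glue N s (Near.Wf g t c₁ c₂)) \
      (⋃ i, F c₁ c₂ (glue N s (Near.Wf g t c₁ c₂)) i) ⊆ N)
    (hst : ∀ c₁ c₂, Near.Far g t c₁ c₂ → ∀ x x', Agree (⋃ i, F c₁ c₂ x i) x x' →
      F c₁ c₂ x' = F c₁ c₂ x ∧ ro c₁ c₂ x' = ro c₁ c₂ x ∧ σ₀ c₁ c₂ x' = σ₀ c₁ c₂ x ∧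
        Θ c₁ c₂ x' = Θ c₁ c₂ x)
    (hΘ : ∀ c₁ c₂ x d, Θ c₁ c₂ x (T.nxt d) = τ ^ 2 * Θ c₁ c₂ x d)
    (hg : ∀ c₁ c₂ x, ∀ h : Coll T (F c₁ c₂ x) (ro c₁ c₂ x), ∀ d,
      ¬ (tmap T (H532.col (F c₁ c₂ x) (ro c₁ c₂ x)) h.fib).Good d → Θ c₁ c₂ x d = 0) {E : ℝ}
    (hE : ∀ c₁ c₂ x, ∑ d, ‖Θ c₁ c₂ x d‖ ^ 2 ≤ E) :
    g.qe (fun c₁ c₂ => ex fun c₃ => cotot T (F c₁ c₂ (g.w c₁ c₂)) (ro c₁ c₂ (g.w c₁ c₂))
      (σ₀ c₁ c₂ (g.w c₁ c₂)) (Θ c₁ c₂ (g.w c₁ c₂))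
      (glue (R c₁ c₂ (g.w c₁ c₂)) (g.w c₁ c₂) c₃)) ≤
      (c ^ (2 * t.card))⁻¹ * (2 ^ Fintype.card ι / 4 * E) := by
  have hE0 : 0 ≤ E :=
    le_trans (sum_nonneg fun d _ => sq_nonneg _) (hE (fun _ => true) (fun _ => true) fun _ => true)
  refine Near.qe_tower hc hH hC hN hin (R := R) (S := fun c₁ c₂ x => ⋃ i, F c₁ c₂ x i)
    (Φ := fun c₁ c₂ x z => cotot T (F c₁ c₂ x) (ro c₁ c₂ x) (σ₀ c₁ c₂ x) (Θ c₁ c₂ x) z)
    (fun c₁ c₂ x z => cotot_nonneg _ _ _) (fun a₁ b₁ a₂ b₂ => (far a₁ b₁ a₂ b₂).1)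
    (fun a₁ b₁ a₂ b₂ => ?_) (fun c₁ c₂ hF x x' h => ?_) hR hFR hRN (fun c₁ c₂ hF x x' h => ?_)
    (fun c₁ c₂ _ x => cotot_blind _ _) (mul_nonneg (by positivity) hE0) fun c₁ c₂ _ x => ?_
  · obtain ⟨-, h1, h2, h3, h4⟩ := far a₁ b₁ a₂ b₂
    funext x z
    rw [h1, h2, h3, h4]
  · dsimp only
    rw [(hst c₁ c₂ hF x x' h).1]
  · obtain ⟨h1, h2, h3, h4⟩ := hst c₁ c₂ hF x x' h
    funext z
    rw [h1, h2, h3, h4]
  · refine (ex_cotot_le hP hτ (hΘ c₁ c₂ x) (hg c₁ c₂ x) _).trans ?_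
    exact mul_le_mul_of_nonneg_left (hE c₁ c₂ x) (by positivity)

end energy

end Vale.Agent.P148.R2.H838
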