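import Vale.Agent.P148.R2.H838.Foot
import Vale.Agent.P148.R2.H838.X2

/-!
# A fresh path coming from the white side footprint hits an excursion on its white side
-/

namespace Vale.Agent.P148.R2.H838

open Function Vale.Agent.P148.R2.H258 Vale.Agent.P148.R2.H258.Tri

variable {V D : Type*} {T : Tri V D}

theorem head_out {σ : V → Bool} {d : D} (h : T.Mi σ d) (hg : T.apex d ≠ T.src d) :
    OutD T (T.src d) (T.rev (T.nxt (T.nxt d))) ∧
    tour T (T.src d) (T.rev (T.nxt (T.nxt d))) = d := by
  have hdO : OutD T (T.src d) d := ⟨rfl, fun hh => h.1 (by rw [hh])⟩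
  refine ⟨⟨by rw [T.src_rev, T.tgt_nxt2], by rw [T.tgt_rev, src_nxt2]; exact hg⟩, ?_⟩
  have ha : T.apex (T.rev (T.rev (T.nxt (T.nxt d)))) ≠ T.src d := by
    rw [T.rev_rev, apex_nxt2]; exact hdO.2
  rw [tour_neg ha, T.rev_rev, T.nxt3]

/-- The dart by which an excursion comes back. -/
theorem ret_tour {σ : V → Bool} {d f : D}
    (hg : T.apex d ≠ T.src d) (hf : T.Rel σ d f) (haf : T.apex f = T.src d) {n : ℕ} (hn : 0 < n)
    (hret : T.src ((T.st σ)^[n] d) = T.src d)
    (hmin : ∀ k, 0 < k → k < n → T.src ((T.st σ)^[k] d) ≠ T.src d) :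
    T.st σ f = (T.st σ)^[n] d ∧ tour T (T.src d) ((T.st σ)^[n] d) = T.nxt (T.nxt f) := by
  obtain ⟨-, hmf, p, hp, hpe, hdis⟩ := hf
  have h1 : T.src ((T.st σ)^[p + 1] d) = T.src d := by
    rw [iterate_succ', comp_apply, hpe, T.src_st_mi hmf, haf]
  have h2 : n ≤ p + 1 := by
    by_contra hc
    push Not at hc
    exact hmin (p + 1) (by omega) hc h1
  have h3 : p < n := by
    by_contra hc
    push Not at hc
    have := hdis n (minimalPeriod (T.st σ) d) hn hc hp le_rfl
    rw [hret, iterate_minimalPeriod] at this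
    exact this rfl
  have h4 : n = p + 1 := by omega
  have h5 : (T.st σ)^[n] d = T.st σ f := by rw [h4, iterate_succ', comp_apply, hpe]
  refine ⟨h5.symm, ?_⟩
  have hsf : T.src f ≠ T.src d := by
    rcases Nat.eq_zero_or_pos p with h6 | h6
    · intro _
      rw [h6, iterate_zero, id] at hpe
      rw [← hpe] at haf
      exact hg haf
    · rw [← hpe]
      exact hmin p h6 (by omega)
  have ha : T.apex (T.rev (T.st σ f)) ≠ T.src d := by
    rw [T.st_mi hmf, T.rev_rev, apex_nxt]; exact hsf
  rw [h5, tour_neg ha, T.st_mi hmf, T.rev_rev]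

/-- Fresh paths from the footprint hit the explored excursion at a hugged vertex of the other colour. -/
theorem side_white (hP : T.Planar) {σ : V → Bool} {d : D} (h : T.Mi σ d)
    (hg : T.apex d ≠ T.src d) {n : ℕ}
    (hret : T.src ((T.st σ)^[n] d) = T.src d)
    (hmin : ∀ k, 0 < k → k < n → T.src ((T.st σ)^[k] d) ≠ T.src d)
    {m j : ℕ} (hm : (tour T (T.src d))^[m] d = (T.st σ)^[n] d) (hj : j ≤ m)
    (hdist : ∀ i, 0 < i → i ≤ m → (tour T (T.src d))^[i] d ≠ d)
    {v : V} {p : List D} (hp : T.Walk (T.tgt ((tour T (T.src d))^[j] d)) v p)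
    (hpH : ∀ g ∈ p, T.src g ∉ Old T σ d n) (hv : v ∈ Old T σ d n) (hvO : v ≠ T.src d) :
    ∃ i ≤ n, T.tgt ((T.st σ)^[i] d) = v := by
  classical
  by_contra hcon
  push Not at hcon
  obtain ⟨i₀, hi₀, hi₁ | hi₁⟩ := hv
  swap
  · exact hcon i₀ hi₀ hi₁
  set O := T.src d with hO
  have hdO : OutD T O d := ⟨rfl, fun hh => h.1 (by rw [hh])⟩
  have hOold : O ∈ Old T σ d n := ⟨0, Nat.zero_le _, Or.inl rfl⟩
  have hi0 : 0 < i₀ := by
    rcases Nat.eq_zero_or_pos i₀ with h1 | h1
    · exfalso; rw [h1] at hi₁; exact hvO hi₁.symm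
    · exact h1
  have hin : i₀ < n := by
    rcases hi₀.lt_or_eq with h1 | h1
    · exact h1
    · exfalso; rw [h1, hret] at hi₁; exact hvO hi₁.symm
  obtain ⟨hg0O, hg0t⟩ := head_out h hg
  set g0 := T.rev (T.nxt (T.nxt d)) with hg0
  have hcs : ∀ k, σ (T.src ((T.st σ)^[k] d)) = σ O := T.col_src_iter σ d
  have hct : ∀ k, σ (T.tgt ((T.st σ)^[k] d)) = σ (T.tgt d) := T.col_tgt_iter σ d
  have hob : ∀ k, OutD T O ((tour T O)^[k] d) := fun k => tour_iter_out hdO k
  -- distinctness of the tour darts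
  have hdist2 : ∀ a b, a < b → b ≤ m → (tour T O)^[a] d ≠ (tour T O)^[b] d := by
    intro a
    induction a with
    | zero => intro b h1 h2 h3; exact hdist b h1 h2 h3.symm
    | succ a ih =>
      intro b h1 h2 h3
      obtain ⟨c, rfl⟩ : ∃ c, b = c + 1 := ⟨b - 1, by omega⟩
      rw [iterate_succ', comp_apply, iterate_succ', comp_apply] at h3
      exact ih c (by omega) (by omega) (tour_inj (hob a) (hob c) h3)
  have hg0ne : ∀ i < m, (tour T O)^[i] d ≠ g0 := by
    intro i hi hh
    have : (tour T O)^[i + 1] d = d := by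
      rw [iterate_succ', comp_apply, hh, hg0t]
    exact hdist (i + 1) (by omega) (by omega) this
  -- the case of the last dart
  have hjm : j < m := by
    rcases hj.lt_or_eq with h1 | h1
    · exact h1
    · exfalso
      rw [h1, hm] at hp
      rcases hp.casesOn' with ⟨_, h2⟩ | ⟨e, p', h2, h3, _⟩
      · exact hcon n le_rfl h2
      · apply hpH e (by rw [h2]; simp)
        rw [h3]
        exact ⟨n, le_rfl, Or.inr rfl⟩
  set bj := (tour T O)^[j] d with hbj
  -- the first vertex of the path is not a target of the strand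
  have hbt : ∀ k ≤ n, T.tgt ((T.st σ)^[k] d) ≠ T.tgt bj := by
    intro k hk hh
    rcases hp.casesOn' with ⟨_, h2⟩ | ⟨e, p', h2, h3, _⟩
    · exact hcon k hk (by rw [hh, h2])
    · apply hpH e (by rw [h2]; simp)
      rw [h3, ← hh]
      exact ⟨k, hk, Or.inr rfl⟩
  -- the left walk back to `O`
  have hlw := (T.lw_walk h.bi i₀).reverse
  rw [hi₁] at hlw
  set W := ((T.lw σ d i₀).map T.rev).reverse with hW
  have hWm : ∀ g ∈ W, ∃ i < i₀, T.tgt g = T.src ((T.st σ)^[i] d) ∧
      T.src g = T.src ((T.st σ)^[i + 1] d) ∧ (i = 0 → T.rev g = g0) := by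
    have key : ∀ k, ∀ g ∈ T.lw σ d k, ∃ i < k, T.src g = T.src ((T.st σ)^[i] d) ∧
        T.tgt g = T.src ((T.st σ)^[i + 1] d) ∧ (i = 0 → g = g0) := by
      intro k
      induction k with
      | zero => intro g hg; simp [lw] at hg
      | succ k ih =>
        intro g hg
        by_cases hmk : T.Mi σ ((T.st σ)^[k] d)
        · have e : T.lw σ d (k + 1) = T.lw σ d k ++ [T.rev (T.nxt (T.nxt ((T.st σ)^[k] d)))] := by
            simp [lw, hmk]
          rw [e, List.mem_append] at hg
          rcases hg with hg | hg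
          · obtain ⟨i, hi, h1⟩ := ih g hg
            exact ⟨i, by omega, h1⟩
          · rw [List.mem_singleton] at hg
            subst hg
            refine ⟨k, by omega, ?_, ?_, ?_⟩
            · rw [T.src_rev, T.tgt_nxt2]
            · rw [T.tgt_rev, iterate_succ', comp_apply, T.src_st_mi hmk]; rfl
            · rintro rfl; rfl
        · have e : T.lw σ d (k + 1) = T.lw σ d k := by simp [lw, hmk]
          rw [e] at hg
          obtain ⟨i, hi, h1⟩ := ih g hg
          exact ⟨i, by omega, h1⟩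
    intro g hg
    rw [hW, List.mem_reverse, List.mem_map] at hg
    obtain ⟨g', hg', rfl⟩ := hg
    obtain ⟨i, hi, h1, h2, h3⟩ := key i₀ g' hg'
    exact ⟨i, hi, by rw [T.tgt_rev, h1], by rw [T.src_rev, h2], fun hz => by rw [T.rev_rev, h3 hz]⟩
  -- the closed walk
  have hΓ : T.Walk O O ([bj] ++ (p ++ W)) := by
    have h1 := Walk.single (T := T) bj
    rw [(hob j).1] at h1
    exact h1.append (hp.append hlw)
  obtain ⟨N, hN1, hN2⟩ := hP _ _ hΓ
  set Γ := [bj] ++ (p ++ W) with hΓdef
  -- along the strand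
  have hmuS : ∀ k ≤ n, T.mu Γ ((T.st σ)^[k] d) = 0 := by
    intro k hk
    have hs : T.src ((T.st σ)^[k] d) ∈ Old T σ d n := ⟨k, hk, Or.inl rfl⟩
    have ht : T.tgt ((T.st σ)^[k] d) ∈ Old T σ d n := ⟨k, hk, Or.inr rfl⟩
    rw [hΓdef, T.mu_append, T.mu_append]
    have z1 : T.mu [bj] ((T.st σ)^[k] d) = 0 := by
      apply T.mu_zero
      · intro hh
        rw [List.mem_singleton] at hh
        exact hbt k hk (by rw [hh])
      · intro hh
        rw [List.mem_singleton] at hh
        have h1 := congrArg T.src hh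
        rw [T.src_rev, (hob j).1] at h1
        have h2 := hct k
        rw [h1] at h2
        exact h.1 h2
    have z2 : T.mu p ((T.st σ)^[k] d) = 0 := by
      apply T.mu_zero
      · intro hh; exact hpH _ hh hs
      · intro hh
        have := hpH _ hh
        rw [T.src_rev] at this
        exact this ht
    have z3 : T.mu W ((T.st σ)^[k] d) = 0 := by
      apply T.mu_zero
      · intro hh
        obtain ⟨i, -, h1, -, -⟩ := hWm _ hh
        have h2 := hct k
        rw [h1, hcs] at h2
        exact h.1 h2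
      · intro hh
        obtain ⟨i, -, -, h1, -⟩ := hWm _ hh
        rw [T.src_rev] at h1
        have h2 := hct k
        rw [h1, hcs] at h2
        exact h.1 h2
    rw [z1, z2, z3]; ring
  have hstepS : ∀ k < n, N ((T.st σ)^[k + 1] d) = N ((T.st σ)^[k] d) := by
    intro k hk
    have hbk : T.Bi σ ((T.st σ)^[k] d) := (T.bi_iter k).2 h.bi
    have hbk1 : T.Bi σ ((T.st σ)^[k + 1] d) := (T.bi_iter (k + 1)).2 h.bi
    have h3 := hN2 ((T.st σ)^[k + 1] d) (Or.inl (fun hh => hbk1 (by rw [hh])))
    have h4 : N (T.rev ((T.st σ)^[k + 1] d)) = N ((T.st σ)^[k] d) := by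
      rw [iterate_succ', comp_apply]; exact T.face_st hN1 hbk
    rw [h4, hmuS _ (by omega)] at h3
    exact (zmod2_add_eq_zero h3).symm
  have hS : ∀ k ≤ n, N ((T.st σ)^[k] d) = N d := by
    intro k
    induction k with
    | zero => intro _; rfl
    | succ k ih => intro hk; rw [hstepS k (by omega), ih (by omega)]
  -- along the tour
  have hmuT : ∀ i < m, T.mu Γ ((tour T O)^[i] d) = if i = j then 1 else 0 := by
    intro i hi
    set e := (tour T O)^[i] d with he
    have heO := hob i
    rw [hΓdef, T.mu_append, T.mu_append]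
    have z1 : T.mu [bj] e = if i = j then 1 else 0 := by
      rw [T.mu_cons, T.mu_nil]
      have h1 : bj ≠ T.rev e := by
        intro hh
        have := congrArg T.src hh
        rw [T.src_rev, (hob j).1] at this
        exact heO.2 this.symm
      by_cases hij : i = j
      · have h2 : bj = e := by rw [he, hij]
        rw [if_pos h2, if_neg h1, if_pos hij]; ring
      · have h2 : bj ≠ e := by
          intro hh
          rcases lt_or_gt_of_ne hij with h3 | h3
          · exact hdist2 i j h3 hj hh.symm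
          · exact hdist2 j i h3 hi.le hh
        rw [if_neg h2, if_neg h1, if_neg hij]; ring
    have z2 : T.mu p e = 0 := by
      apply T.mu_zero
      · intro hh
        exact hpH _ hh (by rw [heO.1]; exact hOold)
      · intro hh
        -- the target of a path dart is fresh, or is `v`
        rcases hp.tgt_mem _ hh with h1 | ⟨e', he', h1⟩
        · rw [T.tgt_rev, heO.1] at h1; exact hvO h1.symm
        · rw [T.tgt_rev, heO.1] at h1
          exact hpH e' he' (by rw [h1]; exact hOold)
    have z3 : T.mu W e = 0 := by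
      apply T.mu_zero
      · intro hh
        obtain ⟨i', hi', h1, h2, -⟩ := hWm _ hh
        rw [heO.1] at h2
        exact hmin (i' + 1) (by omega) (by omega) h2.symm
      · intro hh
        obtain ⟨i', hi', h1, h2, h3⟩ := hWm _ hh
        rw [T.tgt_rev, heO.1] at h1
        rcases Nat.eq_zero_or_pos i' with h4 | h4
        · have := h3 h4
          rw [T.rev_rev] at this
          exact hg0ne i hi this
        · exact hmin i' h4 (by omega) h1.symm
    rw [z1, z2, z3]; ring
  have hstepT : ∀ i < m, N ((tour T O)^[i + 1] d) = N ((tour T O)^[i] d) +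
      (if i = j then 1 else 0) := by
    intro i hi
    have heO := hob i
    have h1 := hN2 ((tour T O)^[i] d) (Or.inl (by rw [heO.1]; exact heO.2.symm))
    rw [hmuT i hi] at h1
    rw [iterate_succ', comp_apply, face_tour hN1, ← h1]
    generalize N (T.rev ((tour T O)^[i] d)) = a
    generalize N ((tour T O)^[i] d) = b
    revert a b; decide
  have hT : ∀ i ≤ m, N ((tour T O)^[i] d) = N d + (if j < i then 1 else 0) := by
    intro i
    induction i with
    | zero => intro _; simp
    | succ i ih =>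
      intro hi
      rw [hstepT i (by omega), ih (by omega)]
      by_cases h1 : i = j
      · rw [if_pos h1, if_neg (by omega), if_pos (by omega)]; ring
      · by_cases h2 : j < i
        · rw [if_neg h1, if_pos h2, if_pos (by omega)]; ring
        · rw [if_neg h1, if_neg h2, if_neg (by omega)]; ring
  have e1 := hT m le_rfl
  rw [hm, hS n le_rfl, if_pos hjm] at e1
  revert e1
  generalize N d = a
  revert a; decide

/-- The footprint theorem together with the return dart of the excursion, which is `tour^(m-1) d`. -/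
theorem foot_ret [Finite D] (hP : T.Planar) {σ : V → Bool} {d : D} (h : T.Mi σ d)
    (hg : T.apex d ≠ T.src d) {n : ℕ} (hn : 0 < n)
    (hret : T.src ((T.st σ)^[n] d) = T.src d)
    (hmin : ∀ k, 0 < k → k < n → T.src ((T.st σ)^[k] d) ≠ T.src d) :
    ∃ f m N, T.Rel σ d f ∧ T.apex f = T.src d ∧ m < N ∧
      (tour T (T.src d))^[N] d = d ∧ (∀ i j, i < j → j < N →
        (tour T (T.src d))^[i] d ≠ (tour T (T.src d))^[j] d) ∧
      (tour T (T.src d))^[m] d = T.nxt (T.nxt f) ∧
      (tour T (T.src d))^[m - 1] d = (T.st σ)^[n] d ∧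
      (∀ k, T.src ((T.st σ)^[k] d) = T.src d →
        ∃ j ≤ m, (tour T (T.src d))^[j] d = (T.st σ)^[k] d) := by
  obtain ⟨f, m, N, h1, h2, h3, h4, h5, h6, -, -, h7⟩ := foot hP h hg
  refine ⟨f, m, N, h1, h2, h3, h4, h5, h6, ?_, h7⟩
  obtain ⟨j, hj, hj2⟩ := h7 n hret
  obtain ⟨-, hr⟩ := ret_tour hg h1 h2 hn hret hmin
  rw [← h6, ← hj2, ← comp_apply (f := tour T (T.src d)), ← iterate_succ', Nat.succ_eq_add_one] at hr
  rw [← hj2]
  rcases (show j + 1 ≤ N by omega).lt_or_eq with h8 | h8
  · have : j + 1 = m := by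
      by_contra hne
      rcases lt_or_gt_of_ne hne with h9 | h9
      · exact h5 _ _ h9 h3 hr
      · exact h5 _ _ h9 h8 hr.symm
    rw [← this, Nat.add_sub_cancel]
  · have : m = 0 := by
      by_contra hne
      rw [h8, h4] at hr
      exact h5 0 m (by omega) h3 hr
    have : j = 0 := by omega
    subst this
    have : m - 1 = 0 := by omega
    rw [this]

/-- **Pathwise half of the flip trick.**  `H` = vertices seen by the excursion of `d` away from `O`, `τ` a
fresh field.  If a walk of colour `c = σ (tgt d)` in `τ`, avoiding `O`, joins the target of a footprint dart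
to a vertex of `H`, then in the mixed colouring the target of that footprint dart is joined by colour `c` to
a hugged vertex of the excursion of colour `c`. -/
theorem net_joined (hP : T.Planar) {σ τ : V → Bool} {d : D} (h : T.Mi σ d)
    (hg : T.apex d ≠ T.src d) {n : ℕ}
    (hret : T.src ((T.st σ)^[n] d) = T.src d)
    (hmin : ∀ k, 0 < k → k < n → T.src ((T.st σ)^[k] d) ≠ T.src d)
    {m j : ℕ} (hm : (tour T (T.src d))^[m] d = (T.st σ)^[n] d) (hj : j ≤ m)
    (hdist : ∀ i, 0 < i → i ≤ m → (tour T (T.src d))^[i] d ≠ d)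
    {u z : V} (hu : u = T.tgt ((tour T (T.src d))^[j] d))
    (hq : Joined T τ (σ (T.tgt d)) {x | x ≠ T.src d} u z) (hz : z ∈ Old T σ d n) :
    ∃ i ≤ n, Joined T (mix (Old T σ d n) σ τ) (σ (T.tgt d)) {x | x ≠ T.src d} u
      (T.tgt ((T.st σ)^[i] d)) := by
  classical
  set H := Old T σ d n with hH
  -- cut the walk at the first vertex of `H`
  have key : ∀ (u z : V) (q : List D), T.Walk u z q → u ≠ T.src d → τ u = σ (T.tgt d) →
      (∀ g ∈ q, (τ (T.src g) = σ (T.tgt d) ∧ T.src g ∈ {x | x ≠ T.src d}) ∧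
        (τ (T.tgt g) = σ (T.tgt d) ∧ T.tgt g ∈ {x | x ≠ T.src d})) → z ∈ H →
      ∃ (v : V) (p : List D), T.Walk u v p ∧ v ∈ H ∧ v ≠ T.src d ∧
        ∀ g ∈ p, T.src g ∉ H ∧ T.src g ≠ T.src d ∧ τ (T.src g) = σ (T.tgt d) := by
    intro u z q hq
    induction hq with
    | nil v => intro h1 _ _ h4; exact ⟨v, [], Walk.nil _, h4, h1, by simp⟩
    | cons e w l hl ih =>
      intro h1 h2 h3 h4
      by_cases he : T.src e ∈ H
      · exact ⟨T.src e, [], Walk.nil _, he, h1, by simp⟩
      · have h5 := h3 e (by simp)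
        obtain ⟨v, p, h6, h7, h8, h9⟩ := ih h5.2.2 h5.2.1
          (fun g hg => h3 g (List.mem_cons_of_mem _ hg)) h4
        refine ⟨v, e :: p, Walk.cons _ _ _ h6, h7, h8, ?_⟩
        intro g hg
        rcases List.mem_cons.1 hg with rfl | hg
        · exact ⟨he, h1, h2⟩
        · exact h9 g hg
  obtain ⟨hq1, hq2, q, hq3, hq4⟩ := hq
  obtain ⟨v, p, hp1, hp2, hp3, hp4⟩ := key u z q hq3 hq1 hq2 hq4 hz
  obtain ⟨i, hi, hi2⟩ := side_white hP h hg hret hmin hm hj hdist (hu ▸ hp1)
    (fun g hg => (hp4 g hg).1) hp2 hp3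
  refine ⟨i, hi, ?_⟩
  rw [hi2]
  have hvc : mix H σ τ v = σ (T.tgt d) := by
    rw [mix_mem hp2, ← hi2]; exact T.col_tgt_iter σ d i
  have hall : ∀ g ∈ p, (mix H σ τ (T.src g) = σ (T.tgt d) ∧ T.src g ∈ {x | x ≠ T.src d}) := by
    intro g hg
    exact ⟨by rw [mix_not_mem (hp4 g hg).1]; exact (hp4 g hg).2.2, (hp4 g hg).2.1⟩
  have hall2 : ∀ g ∈ p, (mix H σ τ (T.tgt g) = σ (T.tgt d) ∧ T.tgt g ∈ {x | x ≠ T.src d}) := by
    intro g hg
    rcases hp1.tgt_mem g hg with h1 | ⟨e, he, h1⟩
    · rw [h1]; exact ⟨hvc, hp3⟩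
    · rw [← h1]; exact hall e he
  refine ⟨hq1, ?_, p, hp1, fun g hg => ⟨hall g hg, hall2 g hg⟩⟩
  rcases hp1.casesOn' with ⟨_, h2⟩ | ⟨e, p', h2, h3, _⟩
  · rw [h2]; exact hvc
  · rw [← h3]; exact (hall e (by rw [h2]; simp)).1

end Vale.Agent.P148.R2.H838
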