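import Vale.Agent.P148.R2.H258.A3

/-!
# X-lemma (deterministic part)

Exploration of a strand `st^k d`, `k = 0, 1, …`, from a dart `d`, away from the face of `rev d`, whose third
vertex is `w`.  As long as `w` is not hugged, and if `S` is a set of vertices (containing `w`) which is
walk-connected from `apex (st^t d)` to `w` and contains no vertex hugged up to time `t`, then for every later
time `n` one of the two sides of the strand at time `n` is joined to `S` by a monochromatic walk of vertices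
hugged after time `t` and not before.
-/

namespace Vale.Agent.P148.R2.H838

open Function Vale.Agent.P148.R2.H258 Vale.Agent.P148.R2.H258.Tri

variable {V D : Type*} (T : Tri V D)

/-- Vertices hugged up to time `t` (time `0` included). -/
def Old (σ : V → Bool) (d : D) (t : ℕ) : Set V :=
  {v | ∃ i ≤ t, T.src ((T.st σ)^[i] d) = v ∨ T.tgt ((T.st σ)^[i] d) = v}

/-- Walk with all vertices (including the starting point) in `F` and of colour `c`. -/
def Joined (σ : V → Bool) (c : Bool) (F : Set V) (x y : V) : Prop :=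
  x ∈ F ∧ σ x = c ∧ ∃ l, T.Walk x y l ∧ ∀ g ∈ l, (σ (T.src g) = c ∧ T.src g ∈ F) ∧
    (σ (T.tgt g) = c ∧ T.tgt g ∈ F)

variable {T}

theorem Joined.refl {σ : V → Bool} {c : Bool} {F : Set V} {x : V} (h1 : x ∈ F) (h2 : σ x = c) :
    Joined T σ c F x x := ⟨h1, h2, [], Walk.nil _, by simp⟩

theorem Joined.mono {σ : V → Bool} {c : Bool} {F G : Set V} {x y : V} (h : Joined T σ c F x y)
    (hFG : F ⊆ G) : Joined T σ c G x y := by
  obtain ⟨h1, h2, l, h3, h4⟩ := h
  exact ⟨hFG h1, h2, l, h3, fun g hg => ⟨⟨(h4 g hg).1.1, hFG (h4 g hg).1.2⟩,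
    ⟨(h4 g hg).2.1, hFG (h4 g hg).2.2⟩⟩⟩

theorem Joined.cons {σ : V → Bool} {c : Bool} {F : Set V} {x y z : V} {g : D}
    (hs : T.src g = x) (ht : T.tgt g = y) (h1 : x ∈ F) (h2 : σ x = c)
    (h : Joined T σ c F y z) : Joined T σ c F x z := by
  obtain ⟨h3, h4, l, h5, h6⟩ := h
  refine ⟨h1, h2, g :: l, Walk.cons' g hs (ht ▸ h5), ?_⟩
  intro f hf
  rcases List.mem_cons.1 hf with rfl | hf
  · rw [hs, ht]; exact ⟨⟨h2, h1⟩, ⟨h4, h3⟩⟩
  · exact h6 f hf

theorem Joined.right {σ : V → Bool} {c : Bool} {F : Set V} {x y : V}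
    (h : Joined T σ c F x y) : y ∈ F ∧ σ y = c := by
  obtain ⟨h1, h2, l, h3, h4⟩ := h
  induction h3 with
  | nil v => exact ⟨h1, h2⟩
  | cons d w l hw ih =>
    have h5 := (h4 d (by simp)).2
    exact ih h5.2 h5.1 (fun g hg => h4 g (List.mem_cons_of_mem _ hg))

theorem Joined.symm {σ : V → Bool} {c : Bool} {F : Set V} {x y : V}
    (h : Joined T σ c F x y) : Joined T σ c F y x := by
  refine ⟨h.right.1, h.right.2, ?_⟩
  obtain ⟨h1, h2, l, h3, h4⟩ := h
  refine ⟨_, h3.reverse, ?_⟩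
  intro g hg
  rw [List.mem_reverse, List.mem_map] at hg
  obtain ⟨g', hg', rfl⟩ := hg
  rw [T.src_rev, T.tgt_rev]
  exact ⟨(h4 g' hg').2, (h4 g' hg').1⟩

theorem Joined.trans {σ : V → Bool} {c : Bool} {F : Set V} {x y z : V}
    (h : Joined T σ c F x y) (h' : Joined T σ c F y z) : Joined T σ c F x z := by
  obtain ⟨h1, h2, l, h3, h4⟩ := h
  obtain ⟨-, -, l', h3', h4'⟩ := h'
  refine ⟨h1, h2, l ++ l', h3.append h3', ?_⟩
  intro g hg
  rcases List.mem_append.1 hg with hg | hg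
  · exact h4 g hg
  · exact h4' g hg

/-- Vertices of the sequence `x` at times in `(t, n]`, not in `O`. -/
def Fr (x : ℕ → V) (O : Set V) (t n : ℕ) : Set V := {u | u ∉ O ∧ ∃ k, t < k ∧ k ≤ n ∧ x k = u}

theorem Fr_mono {x : ℕ → V} {O : Set V} {t n m : ℕ} (h : n ≤ m) : Fr x O t n ⊆ Fr x O t m := by
  rintro u ⟨h1, k, h2, h3, h4⟩
  exact ⟨h1, k, h2, h3.trans h, h4⟩

/-- One side of the strand. -/
theorem side {σ : V → Bool} {c : Bool} {x : ℕ → V} {t : ℕ} {O S : Set V}
    (hadj : ∀ k, x (k + 1) = x k ∨ ∃ g, T.src g = x (k + 1) ∧ T.tgt g = x k)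
    (hc : ∀ k, σ (x k) = c) (hO : ∀ k, x k ∈ O → ∃ j ≤ t, x k = x j) (hS : ∀ j ≤ t, x j ∉ S)
    (n : ℕ) (hn : t ≤ n) :
    (∃ s ∈ S, Joined T σ c (Fr x O t n) (x n) s) ∨
    Joined T σ c Sᶜ (x n) (x 0) := by
  have hback : ∀ j ≤ t, Joined T σ c Sᶜ (x j) (x 0) := by
    intro j
    induction j with
    | zero => intro h; exact Joined.refl (hS 0 h) (hc 0)
    | succ j ih =>
      intro h
      have h1 := ih (by omega)
      rcases hadj j with h2 | ⟨g, h2, h3⟩
      · rw [h2]; exact h1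
      · exact h1.cons h2 h3 (hS _ h) (hc _)
  induction n, hn using Nat.le_induction with
  | base => right; exact hback t le_rfl
  | succ n hn ih =>
    rcases hadj n with h2 | ⟨g, h2, h3⟩
    · rw [h2]
      rcases ih with ⟨s, hs, h⟩ | h
      · left; exact ⟨s, hs, h.mono (Fr_mono (by omega))⟩
      · right; exact h
    · by_cases hO' : x (n + 1) ∈ O
      · obtain ⟨j, hj, hj2⟩ := hO _ hO'
        right; rw [hj2]; exact hback j hj
      have hF : x (n + 1) ∈ Fr x O t (n + 1) := ⟨hO', n + 1, by omega, le_rfl, rfl⟩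
      by_cases hS' : x (n + 1) ∈ S
      · left
        exact ⟨_, hS', Joined.refl hF (hc _)⟩
      · rcases ih with ⟨s, hs, h⟩ | h
        · left
          exact ⟨s, hs, (h.mono (Fr_mono (by omega))).cons h2 h3 hF (hc _)⟩
        · right
          exact h.cons h2 h3 hS' (hc _)

theorem left_adj {σ : V → Bool} {d : D} (hb : T.Bi σ d) (k : ℕ) :
    T.src ((T.st σ)^[k + 1] d) = T.src ((T.st σ)^[k] d) ∨
    ∃ g, T.src g = T.src ((T.st σ)^[k + 1] d) ∧ T.tgt g = T.src ((T.st σ)^[k] d) := by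
  have hb' : T.Bi σ ((T.st σ)^[k] d) := (T.bi_iter k).2 hb
  rw [iterate_succ', comp_apply]
  by_cases hm : T.Mi σ ((T.st σ)^[k] d)
  · right
    refine ⟨T.nxt (T.nxt ((T.st σ)^[k] d)), ?_, T.tgt_nxt2 _⟩
    rw [T.src_st_mi hm, src_nxt2]
  · left; exact T.src_st_nmi hb' hm

theorem right_adj {σ : V → Bool} {d : D} (hb : T.Bi σ d) (k : ℕ) :
    T.tgt ((T.st σ)^[k + 1] d) = T.tgt ((T.st σ)^[k] d) ∨
    ∃ g, T.src g = T.tgt ((T.st σ)^[k + 1] d) ∧ T.tgt g = T.tgt ((T.st σ)^[k] d) := by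
  have hb' : T.Bi σ ((T.st σ)^[k] d) := (T.bi_iter k).2 hb
  rw [iterate_succ', comp_apply]
  by_cases hm : T.Mi σ ((T.st σ)^[k] d)
  · left; exact T.tgt_st_mi hm
  · right
    refine ⟨T.rev (T.nxt ((T.st σ)^[k] d)), ?_, ?_⟩
    · rw [src_rev, tgt_nxt, T.tgt_st_nmi hb' hm]
    · rw [tgt_rev, src_nxt']

/-- The vertex looked at at time `t` is hugged at time `t + 1`. -/
theorem apex_hugged {σ : V → Bool} {d : D} (hb : T.Bi σ d) (k : ℕ) :
    T.src ((T.st σ)^[k + 1] d) = T.apex ((T.st σ)^[k] d) ∨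
    T.tgt ((T.st σ)^[k + 1] d) = T.apex ((T.st σ)^[k] d) := by
  have hb' : T.Bi σ ((T.st σ)^[k] d) := (T.bi_iter k).2 hb
  rw [iterate_succ', comp_apply]
  by_cases hm : T.Mi σ ((T.st σ)^[k] d)
  · left; exact T.src_st_mi hm
  · right; exact T.tgt_st_nmi hb' hm

/-- The strand does not come back to its first dart before hugging the vertex behind it. -/
theorem no_return {σ : V → Bool} {d : D} (hb : T.Bi σ d) {n : ℕ}
    (hw : T.apex (T.rev d) ∉ Old T σ d n) {k : ℕ} (hk : 1 ≤ k) (hkn : k ≤ n + 1) :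
    (T.st σ)^[k] d ≠ d := by
  intro h
  obtain ⟨j, rfl⟩ : ∃ j, k = j + 1 := ⟨k - 1, by omega⟩
  have hb' : T.Bi σ ((T.st σ)^[j] d) := (T.bi_iter j).2 hb
  rw [iterate_succ', comp_apply] at h
  apply hw
  refine ⟨j, by omega, ?_⟩
  by_cases hm : T.Mi σ ((T.st σ)^[j] d)
  · rw [T.st_mi hm] at h
    have h2 := congrArg T.rev h
    rw [T.rev_rev] at h2
    left
    rw [← h2, apex_nxt]
  · rw [T.st_nmi hb' hm] at h
    have h2 := congrArg T.rev h
    rw [T.rev_rev] at h2
    right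
    rw [← h2, apex_nxt2]

/-- Face potentials are constant along walks of unvisited vertices. -/
theorem pot_const_walk {u : V} {Γ : List D} (hw : T.Walk u u Γ) {N : D → ZMod 2}
    (h1 : ∀ d, N (T.nxt d) = N d)
    (h2 : ∀ d, (T.src d ≠ T.tgt d ∨ ∀ e ∈ Γ, T.src e ≠ T.src d) → N d + N (T.rev d) = T.mu Γ d)
    {v w : V} {p : List D} (hp : T.Walk v w p) (hpn : ∀ g ∈ p, ∀ f ∈ Γ, T.src f ≠ T.src g)
    (hwn : ∀ f ∈ Γ, T.src f ≠ w) {e e' : D} (he : T.src e = v) (he' : T.src e' = w) :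
    N e = N e' := by
  induction hp generalizing e with
  | nil v => exact T.const_at hw h1 h2 (by rw [he, he']) (by rw [he]; exact hwn)
  | cons d w l hl ih =>
    have hd := hpn d (by simp)
    have e1 : N e = N d := T.const_at hw h1 h2 he (by rw [he]; exact hd)
    have hm : T.mu Γ d = 0 := by
      apply T.mu_zero
      · intro hh; exact hd d hh rfl
      · intro hh
        obtain ⟨f, hf, hf2⟩ := hw.tgt_mem_closed _ hh
        exact hd f hf (by rw [hf2, T.tgt_rev])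
    have e2 := h2 d (Or.inr hd)
    rw [hm] at e2
    have e3 := ih (fun g hg => hpn g (List.mem_cons_of_mem _ hg)) hwn (e := T.rev d)
      (T.src_rev d) he'
    rw [e1, ← e3]
    exact (zmod2_add_eq_zero e2).symm

variable (T) in
/-- Fresh vertices on the left (resp. right) of the strand. -/
def FrL (σ : V → Bool) (d : D) (t n : ℕ) : Set V :=
  Fr (fun k => T.src ((T.st σ)^[k] d)) (Old T σ d t) t n

variable (T) in
def FrR (σ : V → Bool) (d : D) (t n : ℕ) : Set V :=
  Fr (fun k => T.tgt ((T.st σ)^[k] d)) (Old T σ d t) t n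

/-- **X-lemma.** -/
theorem xlemma (hP : T.Planar) {σ : V → Bool} {d : D} (hb : T.Bi σ d) {t n : ℕ} (htn : t < n)
    (hw : T.apex (T.rev d) ∉ Old T σ d n) {p : List D}
    (hp : T.Walk (T.apex ((T.st σ)^[t] d)) (T.apex (T.rev d)) p)
    (hpo : ∀ g ∈ p, T.src g ∉ Old T σ d t) :
    (∃ g ∈ p, Joined T σ (σ (T.src d)) (FrL T σ d t n) (T.src ((T.st σ)^[n] d)) (T.src g)) ∨
    (∃ g ∈ p, Joined T σ (σ (T.tgt d)) (FrR T σ d t n) (T.tgt ((T.st σ)^[n] d)) (T.src g)) := by
  by_contra hcon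
  push Not at hcon
  obtain ⟨hL, hR⟩ := hcon
  set w := T.apex (T.rev d) with hwdef
  set S : Set V := {u | (∃ g ∈ p, T.src g = u) ∨ u = w} with hSdef
  have hOldn : ∀ i ≤ n, T.src ((T.st σ)^[i] d) ≠ w ∧ T.tgt ((T.st σ)^[i] d) ≠ w :=
    fun i hi => ⟨fun h => hw ⟨i, hi, Or.inl h⟩, fun h => hw ⟨i, hi, Or.inr h⟩⟩
  have hcs : ∀ k, σ (T.src ((T.st σ)^[k] d)) = σ (T.src d) := T.col_src_iter σ d
  have hct : ∀ k, σ (T.tgt ((T.st σ)^[k] d)) = σ (T.tgt d) := T.col_tgt_iter σ d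
  have hA : Joined T σ (σ (T.src d)) Sᶜ (T.src ((T.st σ)^[n] d)) (T.src d) := by
    have g1 : ∀ k, T.src ((T.st σ)^[k] d) ∈ Old T σ d t →
        ∃ j ≤ t, T.src ((T.st σ)^[k] d) = T.src ((T.st σ)^[j] d) := by
      rintro k ⟨i, hi, h | h⟩
      · exact ⟨i, hi, h.symm⟩
      · exfalso
        have h1 := hcs k
        have h2 := hct i
        rw [h, h1] at h2
        exact hb h2
    have g2 : ∀ j ≤ t, T.src ((T.st σ)^[j] d) ∉ S := by
      rintro j hj (⟨g, hg, h⟩ | h)
      · exact hpo g hg ⟨j, hj, Or.inl h.symm⟩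
      · exact (hOldn j (by omega)).1 h
    rcases side (T := T) (σ := σ) (c := σ (T.src d)) (x := fun k => T.src ((T.st σ)^[k] d))
      (t := t) (O := Old T σ d t) (S := S) (left_adj hb) hcs g1 g2 n htn.le with h | h
    · exfalso
      obtain ⟨s, hs, h⟩ := h
      rcases hs with ⟨g, hg, rfl⟩ | rfl
      · exact hL g hg h
      · obtain ⟨-, k, h2, h3, h4⟩ := h.right.1
        exact (hOldn k h3).1 h4
    · exact h
  have hB : Joined T σ (σ (T.tgt d)) Sᶜ (T.tgt ((T.st σ)^[n] d)) (T.tgt d) := by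
    have g1 : ∀ k, T.tgt ((T.st σ)^[k] d) ∈ Old T σ d t →
        ∃ j ≤ t, T.tgt ((T.st σ)^[k] d) = T.tgt ((T.st σ)^[j] d) := by
      rintro k ⟨i, hi, h | h⟩
      · exfalso
        have h1 := hct k
        have h2 := hcs i
        rw [h, h1] at h2
        exact hb h2.symm
      · exact ⟨i, hi, h.symm⟩
    have g2 : ∀ j ≤ t, T.tgt ((T.st σ)^[j] d) ∉ S := by
      rintro j hj (⟨g, hg, h⟩ | h)
      · exact hpo g hg ⟨j, hj, Or.inr h.symm⟩
      · exact (hOldn j (by omega)).2 h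
    rcases side (T := T) (σ := σ) (c := σ (T.tgt d)) (x := fun k => T.tgt ((T.st σ)^[k] d))
      (t := t) (O := Old T σ d t) (S := S) (right_adj hb) hct g1 g2 n htn.le with h | h
    · exfalso
      obtain ⟨s, hs, h⟩ := h
      rcases hs with ⟨g, hg, rfl⟩ | rfl
      · exact hR g hg h
      · obtain ⟨-, k, h2, h3, h4⟩ := h.right.1
        exact (hOldn k h3).2 h4
    · exact h
  obtain ⟨hA1, -, A, hA2, hA3⟩ := hA
  obtain ⟨hB1, -, B, hB2, hB3⟩ := hB.symm
  set dn := (T.st σ)^[n] d with hdn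
  have hΓ : T.Walk (T.src dn) (T.src dn) (A ++ ([d] ++ (B ++ [T.rev dn]))) := by
    refine hA2.append ((Walk.single d).append (hB2.append ?_))
    have := Walk.single (T := T) (T.rev dn)
    rwa [T.src_rev, T.tgt_rev] at this
  obtain ⟨N, hN1, hN2⟩ := hP _ _ hΓ
  set Γ := A ++ ([d] ++ (B ++ [T.rev dn])) with hΓdef
  have hvis : ∀ f ∈ Γ, T.src f ∉ S := by
    intro f hf
    simp only [hΓdef, List.mem_append, List.mem_singleton] at hf
    rcases hf with hf | hf | hf | hf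
    · exact (hA3 f hf).1.2
    · rw [hf]
      exact fun hh => by
        rcases hh with ⟨g, hg, h⟩ | h
        · exact hpo g hg ⟨0, by omega, Or.inl h.symm⟩
        · exact (hOldn 0 (by omega)).1 h
    · exact (hB3 f hf).1.2
    · rw [hf, T.src_rev]
      exact hB.1
  -- values of mu on the strand
  have hmuA : ∀ k, T.mu A ((T.st σ)^[k] d) = 0 := by
    intro k
    have hbk : T.Bi σ ((T.st σ)^[k] d) := (T.bi_iter k).2 hb
    apply T.mu_zero
    · intro hm
      exact hbk (by rw [(hA3 _ hm).1.1, (hA3 _ hm).2.1])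
    · intro hm
      have := hA3 _ hm
      rw [T.src_rev, T.tgt_rev] at this
      exact hbk (by rw [this.1.1, this.2.1])
  have hmuB : ∀ k, T.mu B ((T.st σ)^[k] d) = 0 := by
    intro k
    have hbk : T.Bi σ ((T.st σ)^[k] d) := (T.bi_iter k).2 hb
    apply T.mu_zero
    · intro hm
      exact hbk (by rw [(hB3 _ hm).1.1, (hB3 _ hm).2.1])
    · intro hm
      have := hB3 _ hm
      rw [T.src_rev, T.tgt_rev] at this
      exact hbk (by rw [this.1.1, this.2.1])
  have hrevne : ∀ k m, T.rev ((T.st σ)^[k] d) ≠ (T.st σ)^[m] d := by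
    intro k m hh
    have h3 := congrArg (fun f => σ (T.src f)) hh
    simp only [T.src_rev] at h3
    rw [hct, hcs] at h3
    exact hb h3.symm
  have hmud : ∀ k ≤ n, T.mu [d] ((T.st σ)^[k] d) = if k = 0 then 1 else 0 := by
    intro k hk
    rcases Nat.eq_zero_or_pos k with rfl | hk0
    · rw [T.mu_cons, T.mu_nil]
      have h1 : d ≠ T.rev d := fun hh => hrevne 0 0 hh.symm
      simp [h1]
    · have h1 : d ≠ (T.st σ)^[k] d := (no_return hb hw hk0 (by omega)).symm
      have h2 : d ≠ T.rev ((T.st σ)^[k] d) := fun hh => hrevne k 0 hh.symm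
      rw [T.mu_cons, T.mu_nil]
      simp [h1, h2, hk0.ne']
  have hmun : ∀ k < n, T.mu [T.rev dn] ((T.st σ)^[k] d) = 0 := by
    intro k hk
    rw [T.mu_cons, T.mu_nil]
    have h1 : T.rev dn ≠ (T.st σ)^[k] d := hrevne n k
    have h2 : T.rev dn ≠ T.rev ((T.st σ)^[k] d) := by
      intro hh
      have h3 := congrArg T.rev hh
      rw [T.rev_rev, T.rev_rev, hdn] at h3
      have h4 : (T.st σ)^[k] ((T.st σ)^[n - k] d) = (T.st σ)^[k] d := by
        rw [← iterate_add_apply, Nat.add_sub_cancel' hk.le]; exact h3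
      have h5 := (T.st_injective σ).iterate k h4
      exact no_return hb hw (by omega) (by omega) h5
    simp [h1, h2]
  have hmu : ∀ k < n, T.mu Γ ((T.st σ)^[k] d) = if k = 0 then 1 else 0 := by
    intro k hk
    rw [hΓdef, T.mu_append, T.mu_append, T.mu_append, hmuA, hmuB, hmud k hk.le, hmun k hk]
    simp
  have hstep : ∀ k, N ((T.st σ)^[k + 1] d) = N ((T.st σ)^[k] d) + T.mu Γ ((T.st σ)^[k + 1] d) := by
    intro k
    have hbk : T.Bi σ ((T.st σ)^[k] d) := (T.bi_iter k).2 hb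
    have hbk1 : T.Bi σ ((T.st σ)^[k + 1] d) := (T.bi_iter (k + 1)).2 hb
    have h3 := hN2 ((T.st σ)^[k + 1] d) (Or.inl (fun hh => hbk1 (by rw [hh])))
    have h4 : N (T.rev ((T.st σ)^[k + 1] d)) = N ((T.st σ)^[k] d) := by
      rw [iterate_succ', comp_apply]; exact T.face_st hN1 hbk
    rw [h4] at h3
    rw [← h3]
    generalize N ((T.st σ)^[k + 1] d) = a
    generalize N ((T.st σ)^[k] d) = b
    revert a b; decide
  have hconst : ∀ k < n, N ((T.st σ)^[k] d) = N d := by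
    intro k
    induction k with
    | zero => intro _; rfl
    | succ k ih =>
      intro hk
      rw [hstep k, ih (by omega), hmu _ hk, if_neg (by omega), add_zero]
  have e1 := hconst t htn
  -- the apex side
  have e2 : N ((T.st σ)^[t] d) = N (T.nxt (T.nxt ((T.st σ)^[t] d))) := by rw [hN1, hN1]
  have e3 : N (T.rev d) = N (T.nxt (T.nxt (T.rev d))) := by rw [hN1, hN1]
  have e4 : N (T.nxt (T.nxt ((T.st σ)^[t] d))) = N (T.nxt (T.nxt (T.rev d))) := by
    apply pot_const_walk hΓ hN1 hN2 hp ?_ ?_ (T.src_nxt2 _) (T.src_nxt2 _)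
    · intro g hg f hf hh
      exact hvis f hf (Or.inl ⟨g, hg, hh.symm⟩)
    · intro f hf hh
      exact hvis f hf (Or.inr hh)
  have e5 := hN2 d (Or.inl (fun hh => hb (by rw [hh])))
  have e6 := hmu 0 (by omega)
  rw [iterate_zero, id, if_pos rfl] at e6
  rw [e6, e3, ← e4, ← e2, e1] at e5
  revert e5
  generalize N d = a
  revert a; decide

end Vale.Agent.P148.R2.H838
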